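import Mathlib

/-!
# From two-valued functions to maps into summable sequences
-/

namespace Vale.Agent.P238

open Finset

variable {X : Type} [Fintype X]

/-- A linear inequality between distances that holds for all cuts holds for all real functions. -/
lemma real_of_cuts (L : (X → X → ℝ) →ₗ[ℝ] ℝ)
    (hL : ∀ χ : X → ℝ, (∀ x, χ x = 1 ∨ χ x = -1) → L (fun x y => ((χ x - χ y) / 2) ^ 2) ≤ 0)
    (h : X → ℝ) : L (fun x y => |h x - h y|) ≤ 0 := by
  classical
  induction m : (univ.image h).card using Nat.strong_induction_on generalizing h with
  | _ m ih =>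
    by_cases hc : ∀ x y, h x = h y
    · have e : (fun x y => |h x - h y|) = (0 : X → X → ℝ) := by
        funext x y; simp [hc x y]
      rw [e, map_zero]
    · push Not at hc
      obtain ⟨a, a', haa⟩ := hc
      have hne : (univ.image h).Nonempty := ⟨h a, by simp⟩
      set v := (univ.image h).max' hne with hv
      have hle : ∀ x, h x ≤ v := fun x => le_max' _ _ (by simp)
      have hne' : ((univ.image h).erase v).Nonempty := by
        by_cases e : h a = v
        · exact ⟨h a', mem_erase.mpr ⟨fun e' => haa (e.trans e'.symm), by simp⟩⟩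
        · exact ⟨h a, mem_erase.mpr ⟨e, by simp⟩⟩
      set v' := ((univ.image h).erase v).max' hne' with hv'
      have hv'mem := max'_mem _ hne'
      rw [← hv', mem_erase] at hv'mem
      have hlt : v' < v := lt_of_le_of_ne (le_max' _ _ hv'mem.2) hv'mem.1
      have hle' : ∀ x, h x ≠ v → h x ≤ v' := fun x hx => le_max' _ _ (by simp [hx])
      let h' : X → ℝ := fun x => if h x = v then v' else h x
      let χ : X → ℝ := fun x => if h x = v then 1 else -1
      have e : (fun x y => |h x - h y|) = (fun x y => |h' x - h' y|)
          + (v - v') • (fun x y => ((χ x - χ y) / 2) ^ 2 : X → X → ℝ) := by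
        funext x y
        simp only [Pi.add_apply, Pi.smul_apply, smul_eq_mul, h', χ]
        split_ifs with hx hy hy
        · simp [hx, hy]
        · have := hle' y hy
          rw [hx, abs_of_nonneg (by linarith), abs_of_nonneg (by linarith)]
          ring
        · have := hle' x hx
          rw [hy, abs_of_nonpos (by linarith), abs_of_nonpos (by linarith)]
          ring
        · ring
      rw [e, map_add, map_smul, smul_eq_mul]
      have h1 := hL χ fun x => by
        simp only [χ]
        split_ifs <;> simp
      have h2 : L (fun x y => |h' x - h' y|) ≤ 0 := by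
        refine ih _ ?_ h' rfl
        rw [← m]
        refine lt_of_le_of_lt (card_le_card (t := (univ.image h).erase v) ?_)
          (card_erase_lt_of_mem (max'_mem _ hne))
        intro t ht
        obtain ⟨x, -, rfl⟩ := mem_image.mp ht
        simp only [h']
        split_ifs with hx
        · exact max'_mem _ hne'
        · exact mem_erase.mpr ⟨hx, by simp⟩
      nlinarith [mul_nonpos_of_nonneg_of_nonpos (by linarith : 0 ≤ v - v') h1]

/-- A linear inequality between distances that holds for all cuts holds in `ℓ₁`. -/
theorem l1_of_cuts (L : (X → X → ℝ) →ₗ[ℝ] ℝ)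
    (hL : ∀ χ : X → ℝ, (∀ x, χ x = 1 ∨ χ x = -1) → L (fun x y => ((χ x - χ y) / 2) ^ 2) ≤ 0)
    (F : X → lp (fun _ : ℕ => ℝ) 1) : L (fun x y => ‖F x - F y‖) ≤ 0 := by
  have h : HasSum (fun i x y => |F x i - F y i|) (fun x y => ‖F x - F y‖) := by
    refine Pi.hasSum.mpr fun x => Pi.hasSum.mpr fun y => ?_
    simpa using lp.hasSum_norm (p := 1) (by norm_num) (F x - F y)
  exact ((L.toContinuousLinearMap).hasSum h).nonpos fun i => real_of_cuts L hL fun x => F x i

end Vale.Agent.P238
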