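import Mathlib

/-!
# Edit distance and rotations of windows
-/

namespace Vale.Agent.P238

/-- One edit: insert, delete or substitute one symbol. -/
inductive Step : List Bool → List Bool → Prop
  | ins (l r : List Bool) (b : Bool) : Step (l ++ r) (l ++ b :: r)
  | del (l r : List Bool) (b : Bool) : Step (l ++ b :: r) (l ++ r)
  | sub (l r : List Bool) (b c : Bool) : Step (l ++ b :: r) (l ++ c :: r)

/-- `Edits m x y`: the word `x` turns into `y` by exactly `m` edits. -/
inductive Edits : ℕ → List Bool → List Bool → Prop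
  | refl (x : List Bool) : Edits 0 x x
  | step {m : ℕ} {x y z : List Bool} : Edits m x y → Step y z → Edits (m + 1) x z

/-- The edit distance: the least number of edits. -/
noncomputable def ED (x y : List Bool) : ℕ := sInf {m | Edits m x y}

variable {n : ℕ}

/-- Position `s` moved by `r` cyclically inside the window `[a, a + w)`. -/
def rotIdx (a w r : ℕ) (s : Fin n) : Fin n :=
  if h : a ≤ (s : ℕ) ∧ (s : ℕ) < a + w ∧ a + w ≤ n then
    ⟨a + ((s : ℕ) - a + r) % w, by
      have := Nat.mod_lt ((s : ℕ) - a + r) (show 0 < w by omega)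
      omega⟩
  else s

lemma rotIdx_val_in {a w r : ℕ} {s : Fin n} (h1 : a ≤ (s : ℕ)) (h2 : (s : ℕ) < a + w)
    (h3 : a + w ≤ n) : (rotIdx a w r s : ℕ) = a + ((s : ℕ) - a + r) % w := by
  rw [rotIdx, dif_pos ⟨h1, h2, h3⟩]

lemma rotIdx_out {a w r : ℕ} {s : Fin n} (h : ¬(a ≤ (s : ℕ) ∧ (s : ℕ) < a + w)) :
    rotIdx a w r s = s := by
  rw [rotIdx, dif_neg fun h' => h ⟨h'.1, h'.2.1⟩]

lemma rotIdx_rotIdx (a w r r' : ℕ) (s : Fin n) :
    rotIdx a w r (rotIdx a w r' s) = rotIdx a w (r' + r) s := by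
  by_cases h : a ≤ (s : ℕ) ∧ (s : ℕ) < a + w ∧ a + w ≤ n
  · have hm := Nat.mod_lt ((s : ℕ) - a + r') (show 0 < w by omega)
    have hv := rotIdx_val_in (r := r') h.1 h.2.1 h.2.2
    apply Fin.ext
    rw [rotIdx_val_in (by omega) (by omega) h.2.2, hv, rotIdx_val_in h.1 h.2.1 h.2.2,
      Nat.add_sub_cancel_left, Nat.mod_add_mod, add_assoc]
  · have e : ∀ t, rotIdx a w t s = s := fun t => by rw [rotIdx, dif_neg h]
    rw [e, e, e]

lemma rotIdx_mul_self (a w c : ℕ) (s : Fin n) : rotIdx a w (c * w) s = s := by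
  by_cases h : a ≤ (s : ℕ) ∧ (s : ℕ) < a + w ∧ a + w ≤ n
  · apply Fin.ext
    rw [rotIdx_val_in h.1 h.2.1 h.2.2, Nat.add_mul_mod_self_right, Nat.mod_eq_of_lt (by omega)]
    omega
  · rw [rotIdx, dif_neg h]

lemma rotIdx_inj (a w r : ℕ) : Function.Injective (rotIdx (n := n) a w r) := by
  intro s t h
  by_cases hw : w = 0
  · have e : ∀ u : Fin n, rotIdx a w r u = u := fun u => rotIdx_out (by omega)
    rwa [e, e] at h
  have h' := congrArg (rotIdx a w (r * (w - 1))) h
  have hr : r + r * (w - 1) = r * w := by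
    obtain ⟨v, rfl⟩ : ∃ v, w = v + 1 := ⟨w - 1, by omega⟩
    simp [Nat.mul_succ, add_comm]
  rwa [rotIdx_rotIdx, rotIdx_rotIdx, hr, rotIdx_mul_self, rotIdx_mul_self] at h'

/-- The rotation of the window `[a, a + w)` by `r`, as a permutation of the positions. -/
noncomputable def rot (a w r : ℕ) : Equiv.Perm (Fin n) :=
  Equiv.ofBijective _ (Finite.injective_iff_bijective.mp (rotIdx_inj a w r))

@[simp] lemma rot_apply (a w r : ℕ) (s : Fin n) : rot a w r s = rotIdx a w r s := rfl

lemma rot_symm {a w r : ℕ} (hr : r ≤ w) : (rot (n := n) a w r).symm = rot a w (w - r) := by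
  refine Equiv.ext fun s => ?_
  rw [Equiv.symm_apply_eq, rot_apply, rot_apply, rotIdx_rotIdx,
    show w - r + r = 1 * w by omega, rotIdx_mul_self]

/-- The word with its window `[a, a + w)` rotated by `r`. -/
def rotWord (a w r : ℕ) (x : Fin n → Bool) : Fin n → Bool := x ∘ rotIdx a w r

end Vale.Agent.P238
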