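import Vale.Agent.P238.Defs

/-!
# P238: edit distance of flips and rotations; random words are far from their window rotations
-/

namespace Vale.Agent.P238

open Finset

lemma Step.context {x y : List Bool} (h : Step x y) (p q : List Bool) :
    Step (p ++ x ++ q) (p ++ y ++ q) := by
  cases h with
  | ins l r b => simpa [List.append_assoc] using Step.ins (p ++ l) (r ++ q) b
  | del l r b => simpa [List.append_assoc] using Step.del (p ++ l) (r ++ q) b
  | sub l r b c => simpa [List.append_assoc] using Step.sub (p ++ l) (r ++ q) b c

lemma Edits.trans {m k : ℕ} {x y z : List Bool} (h : Edits m x y) (h' : Edits k y z) :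
    Edits (m + k) x z := by
  induction h' with
  | refl => exact h
  | step _ hs ih => exact .step (ih h) hs

lemma Edits.context {m : ℕ} {x y : List Bool} (h : Edits m x y) (p q : List Bool) :
    Edits m (p ++ x ++ q) (p ++ y ++ q) := by
  induction h with
  | refl => exact .refl _
  | step _ hs ih => exact .step ih (hs.context p q)

lemma edits_to_nil : ∀ x : List Bool, Edits x.length x []
  | [] => .refl _
  | b :: x => by
    have h1 : Edits 1 (b :: x) x := .step (.refl _) (Step.del [] x b)
    rw [List.length_cons, add_comm]
    exact h1.trans (edits_to_nil x)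

lemma edits_from_nil : ∀ x : List Bool, Edits x.length [] x
  | [] => .refl _
  | b :: x => .step (edits_from_nil x) (Step.ins [] x b)

/-- Any word turns into any other. -/
theorem edits_exists (x y : List Bool) : ∃ m, Edits m x y :=
  ⟨_, (edits_to_nil x).trans (edits_from_nil y)⟩

lemma ed_le_of_edits {m : ℕ} {x y : List Bool} (h : Edits m x y) : ED x y ≤ m := Nat.sInf_le h

/-- Flipping one symbol costs at most one edit. -/
theorem ed_flip_le {n : ℕ} (x : Fin n → Bool) (i : Fin n) :
    ED (List.ofFn x) (List.ofFn (Function.update x i (!x i))) ≤ 1 := by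
  apply ed_le_of_edits
  have hset : List.ofFn (Function.update x i (!x i)) = (List.ofFn x).set i (!x i) := by
    apply List.ext_getElem
    · simp
    · intro k h1 h2
      simp only [List.getElem_ofFn, List.getElem_set]
      rcases eq_or_ne (i : ℕ) k with he | he
      · subst he; simp
      · rw [if_neg he, Function.update_of_ne]
        exact fun e => he (by simp [← e])
  have hl : (i : ℕ) < (List.ofFn x).length := by simp
  have hsplit : List.ofFn x = (List.ofFn x).take i ++ (List.ofFn x)[(i : ℕ)] ::
      (List.ofFn x).drop (i + 1) := by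
    rw [← List.drop_eq_getElem_cons hl, List.take_append_drop]
  rw [hset, List.set_eq_take_append_cons_drop, if_pos hl]
  nth_rewrite 1 [hsplit]
  exact .step (.refl _) (Step.sub _ _ _ _)

/-- Exchanging two adjacent blocks costs twice the length of the first one. -/
lemma edits_swap (P A B Q : List Bool) :
    Edits (2 * A.length) (P ++ (A ++ B) ++ Q) (P ++ (B ++ A) ++ Q) := by
  have h1 := ((edits_to_nil A).context [] B).context P Q
  have h2 := ((edits_from_nil A).context B []).context P Q
  simp only [List.nil_append, List.append_nil] at h1 h2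
  rw [two_mul]
  exact h1.trans h2

section window

variable {n a w r : ℕ} (x : Fin n → Bool)

/-- The window `[a, a + w)` of a word. -/
def window (a w : ℕ) (x : Fin n → Bool) : List Bool := ((List.ofFn x).drop a).take w

lemma ofFn_eq_window (a w : ℕ) :
    List.ofFn x = (List.ofFn x).take a ++ window a w x ++ (List.ofFn x).drop (a + w) := by
  rw [window, List.append_assoc, ← List.drop_drop, List.take_append_drop, List.take_append_drop]

lemma length_window (h : a + w ≤ n) : (window a w x).length = w := by
  simp [window]; omega

lemma take_rotWord (h : a + w ≤ n) :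
    (List.ofFn (rotWord a w r x)).take a = (List.ofFn x).take a := by
  apply List.ext_getElem
  · simp
  · intro k h1 h2
    simp only [List.length_take, List.length_ofFn] at h1
    simp only [List.getElem_take, List.getElem_ofFn, rotWord, Function.comp_apply]
    rw [rotIdx_out (by show ¬(a ≤ k ∧ k < a + w); omega)]

lemma drop_rotWord (_h : a + w ≤ n) :
    (List.ofFn (rotWord a w r x)).drop (a + w) = (List.ofFn x).drop (a + w) := by
  apply List.ext_getElem
  · simp
  · intro k h1 h2
    simp only [List.getElem_drop, List.getElem_ofFn, rotWord, Function.comp_apply]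
    rw [rotIdx_out (by show ¬(a ≤ a + w + k ∧ a + w + k < a + w); omega)]

lemma window_getElem (h : a + w ≤ n) (k : ℕ) (hk : k < w) :
    (window a w x)[k]'(by rw [length_window x h]; exact hk) = x ⟨a + k, by omega⟩ := by
  simp [window]

lemma window_rotWord_getElem (h : a + w ≤ n) (k : ℕ) (hk : k < w) :
    (window a w (rotWord a w r x))[k]'(by rw [length_window _ h]; exact hk) =
      x ⟨a + (k + r) % w, by have := Nat.mod_lt (k + r) (show 0 < w by omega); omega⟩ := by
  rw [window_getElem _ h k hk]
  simp only [rotWord, Function.comp_apply]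
  congr 1
  apply Fin.ext
  rw [rotIdx_val_in (by show a ≤ a + k; omega) (by show a + k < a + w; omega) h]
  simp

end window

/-- Rotating a window by `r` costs at most `2 r` edits. -/
theorem ed_rot_le {n a w r : ℕ} (x : Fin n → Bool) (hr : r ≤ w) :
    ED (List.ofFn x) (List.ofFn (rotWord a w r x)) ≤ 2 * r := by
  by_cases h : a + w ≤ n
  · have hrot : window a w (rotWord a w r x) =
        (window a w x).drop r ++ (window a w x).take r := by
      rcases Nat.eq_zero_or_pos w with rfl | hw
      · simp [window]
      apply List.ext_getElem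
      · simp [length_window _ h]; omega
      · intro k h1 h2
        rw [length_window _ h] at h1
        rw [window_rotWord_getElem x h k h1, List.getElem_append]
        by_cases hk : k + r < w
        · rw [dif_pos (by simp [length_window _ h]; omega), List.getElem_drop,
            window_getElem x h _ (by omega)]
          congr 1
          apply Fin.ext
          simp [Nat.mod_eq_of_lt hk, add_comm r k]
        · rw [dif_neg (by simp [length_window _ h]; omega), List.getElem_take,
            window_getElem x h _ (by simp [length_window _ h]; omega)]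
          congr 1
          apply Fin.ext
          simp only [List.length_drop, length_window _ h]
          rw [Nat.mod_eq_sub_mod (by omega), Nat.mod_eq_of_lt (by omega)]
          omega
    have he := edits_swap ((List.ofFn x).take a) ((window a w x).take r) ((window a w x).drop r)
      ((List.ofFn x).drop (a + w))
    rw [List.take_append_drop, ← ofFn_eq_window, ← hrot, ← take_rotWord (r := r) x h,
      ← drop_rotWord (r := r) x h, ← ofFn_eq_window] at he
    refine (ed_le_of_edits he).trans ?_
    simp [length_window x h]
  · have e : rotWord a w r x = x := by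
      funext s
      simp only [rotWord, Function.comp_apply, rotIdx]
      rw [dif_neg fun hh => h hh.2.2]
    rw [e]
    exact (ed_le_of_edits (.refl _)).trans (Nat.zero_le _)

/-! ### Common subsequences -/

lemma exists_sublist_erase {z l r : List Bool} {b : Bool} (h : List.Sublist z (l ++ b :: r)) :
    ∃ z', List.Sublist z' z ∧ List.Sublist z' (l ++ r) ∧ z.length ≤ z'.length + 1 := by
  obtain ⟨z1, z2, rfl, h1, h2⟩ := List.sublist_append_iff.1 h
  rcases List.sublist_cons_iff.1 h2 with h2 | ⟨z3, rfl, h3⟩
  · exact ⟨z1 ++ z2, .refl _, h1.append h2, Nat.le_succ _⟩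
  · exact ⟨z1 ++ z3, (List.Sublist.refl z1).append (List.sublist_cons_self _ _), h1.append h3,
      by simp; omega⟩

lemma Edits.exists_common {m : ℕ} {x y : List Bool} (h : Edits m x y) :
    ∃ z, List.Sublist z x ∧ List.Sublist z y ∧ x.length ≤ z.length + m := by
  induction h with
  | refl => exact ⟨_, .refl _, .refl _, le_rfl⟩
  | step _ hs ih =>
    obtain ⟨z, hx, hy, hl⟩ := ih
    cases hs with
    | ins l r b =>
      exact ⟨z, hx, hy.trans ((List.Sublist.refl l).append (List.sublist_cons_self _ _)),
        by omega⟩
    | del l r b =>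
      obtain ⟨z', h1, h2, h3⟩ := exists_sublist_erase hy
      exact ⟨z', h1.trans hx, h2, by omega⟩
    | sub l r b c =>
      obtain ⟨z', h1, h2, h3⟩ := exists_sublist_erase hy
      exact ⟨z', h1.trans hx,
        h2.trans ((List.Sublist.refl l).append (List.sublist_cons_self _ _)), by omega⟩

lemma middle_sublist {z P X Q : List Bool} (h : List.Sublist z (P ++ X ++ Q)) {k : ℕ}
    (hk : P.length + k + Q.length ≤ z.length) :
    List.Sublist ((z.drop P.length).take k) X := by
  obtain ⟨z12, z3, rfl, h12, h3⟩ := List.sublist_append_iff.1 h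
  obtain ⟨z1, z2, rfl, h1, h2⟩ := List.sublist_append_iff.1 h12
  have l1 := h1.length_le
  have l3 := h3.length_le
  simp only [List.length_append] at hk
  rw [List.append_assoc, List.drop_append, List.drop_eq_nil_of_le l1, List.nil_append,
    List.drop_append, List.take_append_of_le_length (by simp; omega)]
  exact ((List.take_sublist _ _).trans (List.drop_sublist _ _)).trans h2

/-! ### Counting -/

lemma strictMono_bounds {m q : ℕ} (φ : Fin m → Fin (m + q)) (h : StrictMono φ) (t : Fin m) :
    (t : ℕ) ≤ φ t ∧ (φ t : ℕ) ≤ t + q := by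
  have h1 := Finset.card_le_card_of_injOn φ
    (s := Finset.Iic t) (t := Finset.Iic (φ t))
    (fun i hi => Finset.mem_coe.2 (Finset.mem_Iic.2 (h.monotone (Finset.mem_Iic.1 hi))))
    h.injective.injOn
  have h2 := Finset.card_le_card_of_injOn φ
    (s := Finset.Ici t) (t := Finset.Ici (φ t))
    (fun i hi => Finset.mem_coe.2 (Finset.mem_Ici.2 (h.monotone (Finset.mem_Ici.1 hi))))
    h.injective.injOn
  simp only [Fin.card_Iic, Fin.card_Ici] at h1 h2
  omega

lemma card_strictMono_le (m w : ℕ) :
    (Finset.univ.filter fun φ : Fin m → Fin w => StrictMono φ).card ≤ w.choose m := by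
  classical
  refine le_trans (Finset.card_le_card_of_injOn (fun φ => Finset.univ.image φ)
    (t := (Finset.univ : Finset (Fin w)).powersetCard m) ?_ ?_) (by simp)
  · intro φ hφ
    simp only [Finset.coe_filter, Finset.mem_univ, true_and, Set.mem_ofPred_eq] at hφ
    rw [Finset.mem_coe, Finset.mem_powersetCard]
    exact ⟨Finset.subset_univ _, by simp [Finset.card_image_of_injective _ hφ.injective]⟩
  · intro φ hφ ψ hψ he
    simp only [Finset.coe_filter, Finset.mem_univ, true_and, Set.mem_ofPred_eq] at hφ hψ
    refine (hφ.range_inj hψ).1 ?_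
    have := congrArg (fun s : Finset (Fin w) => (s : Set (Fin w))) he
    simpa using this

lemma choose_le_pow (q : ℕ) : (64 * q).choose q ≤ 2 ^ (8 * q) := by
  have h1 : (64 * q).choose q * 63 ^ (63 * q) ≤ 64 ^ (64 * q) := by
    have h := add_pow (R := ℕ) 1 63 (64 * q)
    rw [show (1 : ℕ) + 63 = 64 by norm_num] at h
    rw [h]
    refine le_trans (le_of_eq ?_) (Finset.single_le_sum (f := fun i =>
      1 ^ i * 63 ^ (64 * q - i) * ((64 * q).choose i : ℕ)) (fun i _ => Nat.zero_le _)
      (Finset.mem_range.2 (show q < 64 * q + 1 by omega)))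
    simp only [one_pow, one_mul]
    rw [show 64 * q - q = 63 * q by omega, mul_comm]
  have h2 : (64 : ℕ) ^ (64 * q) ≤ 2 ^ (8 * q) * 63 ^ (63 * q) := by
    rw [pow_mul, pow_mul, pow_mul, ← mul_pow]
    exact Nat.pow_le_pow_left (by norm_num) q
  exact Nat.le_of_mul_le_mul_right (h1.trans h2) (by positivity)

/-- Words equal on a family of pairs of distinct positions are few. -/
lemma card_pairs_le {n m : ℕ} (A B : Fin m → Fin n) (hA : Function.Injective A)
    (hB : Function.Injective B) (hne : ∀ t, A t ≠ B t) (k : ℕ) (hk : 2 * k ≤ m + 1) :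
    (Finset.univ.filter fun x : Fin n → Bool => ∀ t, x (A t) = x (B t)).card * 2 ^ k ≤ 2 ^ n := by
  classical
  set D : Finset (Fin n) := Finset.univ.image fun t => max (A t) (B t) with hD
  have hDcard : m ≤ 2 * D.card := by
    have h := Finset.card_le_mul_card_image (s := (Finset.univ : Finset (Fin m)))
      (f := fun t => max (A t) (B t)) 2 (fun p _ => by
        refine le_trans (Finset.card_le_card (t := (Finset.univ.filter fun t => A t = p) ∪
          Finset.univ.filter fun t => B t = p) fun t ht => ?_) ?_
        · simp only [Finset.mem_filter, Finset.mem_univ, true_and] at ht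
          simp only [Finset.mem_union, Finset.mem_filter, Finset.mem_univ, true_and]
          rcases max_choice (A t) (B t) with e | e
          · exact Or.inl (e ▸ ht)
          · exact Or.inr (e ▸ ht)
        · refine (Finset.card_union_le _ _).trans ?_
          have e1 : (Finset.univ.filter fun t => A t = p).card ≤ 1 :=
            Finset.card_le_one.2 fun s hs t ht => hA (by
              simp only [Finset.mem_filter, Finset.mem_univ, true_and] at hs ht
              rw [hs, ht])
          have e2 : (Finset.univ.filter fun t => B t = p).card ≤ 1 :=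
            Finset.card_le_one.2 fun s hs t ht => hB (by
              simp only [Finset.mem_filter, Finset.mem_univ, true_and] at hs ht
              rw [hs, ht])
          omega)
    simpa [hD] using h
  have hinj : Set.InjOn (fun (x : Fin n → Bool) (i : {i // i ∉ D}) => x i)
      (Finset.univ.filter fun x : Fin n → Bool => ∀ t, x (A t) = x (B t)) := by
    intro x hx y hy he
    simp only [Finset.coe_filter, Finset.mem_univ, true_and, Set.mem_ofPred_eq] at hx hy
    have key : ∀ N : ℕ, ∀ p : Fin n, (p : ℕ) = N → x p = y p := by
      intro N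
      induction N using Nat.strong_induction_on with
      | _ N ih =>
        intro p hp
        by_cases hpD : p ∈ D
        · obtain ⟨t, -, rfl⟩ := Finset.mem_image.1 hpD
          rcases lt_or_gt_of_ne (hne t) with hlt | hlt
          · rw [max_eq_right hlt.le] at hp ⊢
            rw [← hx t, ← hy t]
            exact ih _ (hp ▸ hlt) _ rfl
          · rw [max_eq_left hlt.le] at hp ⊢
            rw [hx t, hy t]
            exact ih _ (hp ▸ hlt) _ rfl
        · exact congrFun he ⟨p, hpD⟩
    funext p
    exact key _ p rfl
  have h := Finset.card_le_card_of_injOn _ (t := (Finset.univ : Finset ({i // i ∉ D} → Bool)))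
    (fun x _ => Finset.mem_coe.2 (Finset.mem_univ _)) hinj
  rw [Finset.card_univ, Fintype.card_fun, Fintype.card_bool, Fintype.card_subtype_compl,
    Fintype.card_fin, Fintype.card_coe] at h
  have hDn : D.card ≤ n := (Finset.card_le_univ D).trans (by simp)
  calc _ ≤ 2 ^ (n - D.card) * 2 ^ k := Nat.mul_le_mul_right _ h
    _ ≤ 2 ^ (n - D.card) * 2 ^ D.card :=
        Nat.mul_le_mul_left _ (Nat.pow_le_pow_right (by norm_num) (by omega))
    _ = 2 ^ n := by rw [← pow_add, Nat.sub_add_cancel hDn]

/-- A uniform word is far from the rotations of a window by middling amounts. -/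
theorem ed_rot_far {n a w r q : ℕ} (ha : a + w ≤ n) (hq : 0 < q) (hw : w = 64 * q) (h1 : q < r)
    (h2 : r + q < w) :
    q * 2 ^ n ≤ 2 * ∑ x : Fin n → Bool, ED (List.ofFn x) (List.ofFn (rotWord a w r x)) := by
  classical
  obtain ⟨m, hm⟩ : ∃ m, w = m + q := ⟨w - q, by omega⟩
  subst hm
  have hw0 : 0 < m + q := by omega
  let posA : Fin (m + q) → Fin n := fun i => ⟨a + i, by omega⟩
  let posB : Fin (m + q) → Fin n := fun i =>
    ⟨a + ((i : ℕ) + r) % (m + q), by have := Nat.mod_lt ((i : ℕ) + r) hw0; omega⟩
  set S := (Finset.univ.filter fun φ : Fin m → Fin (m + q) => StrictMono φ) with hS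
  let E : (Fin m → Fin (m + q)) × (Fin m → Fin (m + q)) → Finset (Fin n → Bool) := fun p =>
    Finset.univ.filter fun x => ∀ t, x (posA (p.1 t)) = x (posB (p.2 t))
  set bad := Finset.univ.filter fun x : Fin n → Bool =>
    ED (List.ofFn x) (List.ofFn (rotWord a (m + q) r x)) ≤ q with hbad
  have hcover : bad ⊆ (S ×ˢ S).biUnion E := by
    intro x hx
    simp only [hbad, Finset.mem_filter, Finset.mem_univ, true_and] at hx
    have hmem : Edits (ED (List.ofFn x) (List.ofFn (rotWord a (m + q) r x))) (List.ofFn x)
        (List.ofFn (rotWord a (m + q) r x)) := Nat.sInf_mem (edits_exists _ _)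
    obtain ⟨z, hzx, hzy, hzl⟩ := hmem.exists_common
    simp only [List.length_ofFn] at hzl
    rw [ofFn_eq_window x a (m + q)] at hzx
    rw [ofFn_eq_window _ a (m + q), take_rotWord x ha, drop_rotWord x ha] at hzy
    have hk : ((List.ofFn x).take a).length + m + ((List.ofFn x).drop (a + (m + q))).length ≤
        z.length := by
      simp; omega
    have hX := middle_sublist hzx hk
    have hY := middle_sublist hzy hk
    set z' := (z.drop ((List.ofFn x).take a).length).take m with hz'
    have hlen : z'.length = m := by
      simp only [hz', List.length_take, List.length_drop, List.length_ofFn] at hk ⊢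
      omega
    obtain ⟨f, hf⟩ := List.sublist_iff_exists_fin_orderEmbedding_get_eq.1 hX
    obtain ⟨g, hg⟩ := List.sublist_iff_exists_fin_orderEmbedding_get_eq.1 hY
    let φ : Fin m → Fin (m + q) := fun t =>
      Fin.cast (length_window x ha) (f (Fin.cast hlen.symm t))
    let ψ : Fin m → Fin (m + q) := fun t =>
      Fin.cast (length_window _ ha) (g (Fin.cast hlen.symm t))
    refine Finset.mem_biUnion.2 ⟨(φ, ψ), ?_, ?_⟩
    · simp only [hS, Finset.mem_product, Finset.mem_filter, Finset.mem_univ, true_and]
      exact ⟨fun s t hst => f.strictMono (show Fin.cast hlen.symm s < Fin.cast hlen.symm t from hst),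
        fun s t hst => g.strictMono (show Fin.cast hlen.symm s < Fin.cast hlen.symm t from hst)⟩
    · simp only [E, Finset.mem_filter, Finset.mem_univ, true_and]
      intro t
      have h3 := (hf (Fin.cast hlen.symm t)).symm.trans (hg (Fin.cast hlen.symm t))
      rw [List.get_eq_getElem, List.get_eq_getElem] at h3
      exact (window_getElem x ha (φ t) (φ t).isLt).symm.trans
        (h3.trans (window_rotWord_getElem x ha (ψ t) (ψ t).isLt))
  have hE : ∀ p ∈ S ×ˢ S, (E p).card * 2 ^ (31 * q) ≤ 2 ^ n := by
    rintro ⟨φ, ψ⟩ hp
    simp only [hS, Finset.mem_product, Finset.mem_filter, Finset.mem_univ, true_and] at hp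
    obtain ⟨hφ, hψ⟩ := hp
    refine card_pairs_le (fun t => posA (φ t)) (fun t => posB (ψ t))
      (fun s t e => hφ.injective ?_) (fun s t e => hψ.injective ?_) (fun t e => ?_) _ (by omega)
    · simp only [posA, Fin.mk.injEq] at e
      exact Fin.ext (by omega)
    · simp only [posB, Fin.mk.injEq, add_right_inj] at e
      exact Fin.ext (Nat.ModEq.eq_of_lt_of_lt (Nat.ModEq.add_right_cancel' r e) (ψ s).isLt
        (ψ t).isLt)
    · simp only [posA, posB, Fin.mk.injEq, add_right_inj] at e
      obtain ⟨l1, u1⟩ := strictMono_bounds φ hφ t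
      obtain ⟨l2, u2⟩ := strictMono_bounds ψ hψ t
      by_cases hlt : (ψ t : ℕ) + r < m + q
      · rw [Nat.mod_eq_of_lt hlt] at e; omega
      · rw [Nat.mod_eq_sub_mod (by omega), Nat.mod_eq_of_lt (by omega)] at e
        omega
  have hScard : S.card ≤ 2 ^ (8 * q) := by
    refine (card_strictMono_le m (m + q)).trans ?_
    rw [Nat.choose_symm_add, hw]
    exact choose_le_pow q
  have hbad2 : bad.card * 2 ≤ 2 ^ n := by
    have hc : bad.card * 2 ^ (31 * q) ≤ 2 ^ (16 * q) * 2 ^ n := by
      calc bad.card * 2 ^ (31 * q) ≤ (∑ p ∈ S ×ˢ S, (E p).card) * 2 ^ (31 * q) :=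
            Nat.mul_le_mul_right _ ((Finset.card_le_card hcover).trans Finset.card_biUnion_le)
        _ = ∑ p ∈ S ×ˢ S, (E p).card * 2 ^ (31 * q) := Finset.sum_mul _ _ _
        _ ≤ (S ×ˢ S).card * 2 ^ n := by
            simpa using Finset.sum_le_card_nsmul _ _ _ hE
        _ ≤ 2 ^ (16 * q) * 2 ^ n := by
            refine Nat.mul_le_mul_right _ ?_
            rw [Finset.card_product, show 16 * q = 8 * q + 8 * q by ring, pow_add]
            exact Nat.mul_le_mul hScard hScard
    refine Nat.le_of_mul_le_mul_left ?_ (show 0 < 2 ^ (16 * q) by positivity)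
    calc 2 ^ (16 * q) * (bad.card * 2) = bad.card * 2 ^ (16 * q + 1) := by ring
      _ ≤ bad.card * 2 ^ (31 * q) :=
          Nat.mul_le_mul_left _ (Nat.pow_le_pow_right (by norm_num) (by omega))
      _ ≤ _ := hc
  have hgood : 2 ^ n ≤ 2 * (Finset.univ.filter fun x : Fin n → Bool =>
      ¬ ED (List.ofFn x) (List.ofFn (rotWord a (m + q) r x)) ≤ q).card := by
    have h := Finset.card_filter_add_card_filter_not (s := (Finset.univ : Finset (Fin n → Bool)))
      (fun x => ED (List.ofFn x) (List.ofFn (rotWord a (m + q) r x)) ≤ q)
    rw [Finset.card_univ, Fintype.card_fun, Fintype.card_bool, Fintype.card_fin, ← hbad] at h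
    omega
  calc q * 2 ^ n ≤ q * (2 * (Finset.univ.filter fun x : Fin n → Bool =>
        ¬ ED (List.ofFn x) (List.ofFn (rotWord a (m + q) r x)) ≤ q).card) :=
        Nat.mul_le_mul_left _ hgood
    _ = 2 * ∑ x ∈ Finset.univ.filter (fun x : Fin n → Bool =>
        ¬ ED (List.ofFn x) (List.ofFn (rotWord a (m + q) r x)) ≤ q), q := by
        rw [Finset.sum_const, smul_eq_mul]; ring
    _ ≤ _ := by
        refine Nat.mul_le_mul_left _ ?_
        refine le_trans (Finset.sum_le_sum fun x hx => ?_)
          (Finset.sum_le_sum_of_subset (Finset.filter_subset _ _))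
        exact (not_le.1 (Finset.mem_filter.1 hx).2).le

end Vale.Agent.P238
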