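import Vale.Agent.P063.Cube

/-!
# Low Fourier mass inside a window of a sign function
-/

namespace Vale.Agent.P238

open Finset
open Vale.Agent.P063

variable {ι : Type} [Fintype ι] [DecidableEq ι]

/-- A function with values in `{1, -1}`. -/
def IsSign (f : (ι → Bool) → ℝ) : Prop := ∀ x, f x = 1 ∨ f x = -1

/-- The probability that a sign function changes under a permutation of the positions. -/
noncomputable def dis (f : (ι → Bool) → ℝ) (σ : Equiv.Perm ι) : ℝ :=
  avg fun x => ((f x - f (x ∘ σ)) / 2) ^ 2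

lemma avg_comp (σ : Equiv.Perm ι) (f : (ι → Bool) → ℝ) : avg (fun x => f (x ∘ σ)) = avg f := by
  unfold avg
  congr 1
  refine Fintype.sum_equiv (Equiv.arrowCongr σ.symm (Equiv.refl Bool)) _ _ fun x => ?_
  rfl

omit [Fintype ι] [DecidableEq ι] in
lemma chi_comp (σ : Equiv.Perm ι) (S : Finset ι) (x : ι → Bool) :
    chi S (x ∘ σ) = chi (S.map σ.toEmbedding) x := by
  simp [chi, prod_map]

lemma coef_comp (σ : Equiv.Perm ι) (f : (ι → Bool) → ℝ) (S : Finset ι) :
    coef (fun x => f (x ∘ σ)) (S.map σ.toEmbedding) = coef f S := by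
  rw [coef, coef, ← avg_comp σ (fun x => f x * chi S x)]
  congr 1
  funext x
  rw [chi_comp]

lemma dis_eq (f : (ι → Bool) → ℝ) (σ : Equiv.Perm ι) :
    4 * dis f σ = ∑ S, (coef f S - coef f (S.map σ.toEmbedding)) ^ 2 := by
  have h : dis f σ = avg fun x => ((1/2 : ℝ) * (f x - f (x ∘ σ))) ^ 2 := by
    unfold dis; congr 1; funext x; ring
  have hc : ∀ S, coef (fun x => (1/2 : ℝ) * (f x - f (x ∘ σ))) S
      = (1/2 : ℝ) * (coef f S - coef (fun x => f (x ∘ σ)) S) := fun S => by
    simp only [coef]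
    rw [← avg_sub, ← avg_smul]
    congr 1
    funext x
    ring
  rw [h, parseval, mul_sum]
  refine (Fintype.sum_equiv (Equiv.finsetCongr σ) _ _ fun S => ?_).symm
  rw [Equiv.finsetCongr_apply, hc, coef_comp]
  ring

lemma dis_symm (f : (ι → Bool) → ℝ) (σ : Equiv.Perm ι) : dis f σ.symm = dis f σ := by
  rw [dis, ← avg_comp σ (fun x => ((f x - f (x ∘ σ.symm)) / 2) ^ 2)]
  unfold dis
  congr 1
  funext x
  have e : (x ∘ σ) ∘ σ.symm = x := by funext i; simp
  rw [e]
  ring

omit [Fintype ι] [DecidableEq ι] in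
lemma sign_triangle {f : (ι → Bool) → ℝ} (hf : IsSign f) (a b c d : ι → Bool) :
    ((f a - f d) / 2) ^ 2 ≤
      ((f a - f b) / 2) ^ 2 + ((f b - f c) / 2) ^ 2 + ((f c - f d) / 2) ^ 2 := by
  rcases hf a with ha | ha <;> rcases hf b with hb | hb <;> rcases hf c with hc | hc <;>
    rcases hf d with hd | hd <;> rw [ha, hb, hc, hd] <;> norm_num

lemma infl_le_dis {f : (ι → Bool) → ℝ} (hf : IsSign f) (σ : Equiv.Perm ι) (i : ι) :
    infl f i ≤ 2 * dis f σ + infl f (σ i) := by
  have e : ∀ x, flipAt i (x ∘ σ) = flipAt (σ i) x ∘ σ := fun x => by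
    funext j
    simp only [flipAt, Function.comp, Function.update_apply, σ.injective.eq_iff]
  rw [infl, ← avg_comp σ (fun x => ((f x - f (flipAt i x)) / 2) ^ 2)]
  simp only [e]
  refine (avg_mono fun x => sign_triangle hf (x ∘ σ) x (flipAt (σ i) x) _).trans (le_of_eq ?_)
  rw [avg_add, avg_add, avg_flipAt (σ i) fun x => ((f x - f (x ∘ σ)) / 2) ^ 2]
  have e1 : avg (fun x => ((f (x ∘ σ) - f x) / 2) ^ 2) = dis f σ := by
    unfold dis; congr 1; funext x; ring
  rw [e1, dis, infl]
  ring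

/-- The Fourier mass of the sets meeting `K` in between one and `D` positions. -/
noncomputable def lowMass (f : (ι → Bool) → ℝ) (K : Finset ι) (D : ℕ) : ℝ :=
  ∑ S with 1 ≤ (S ∩ K).card ∧ (S ∩ K).card ≤ D, coef f S ^ 2

lemma sum_coef_sq {f : (ι → Bool) → ℝ} (hf : IsSign f) : ∑ S, coef f S ^ 2 = 1 := by
  rw [← parseval]
  have h : (fun x => f x ^ 2) = fun _ : ι → Bool => (1 : ℝ) := by
    funext x
    rcases hf x with h | h <;> rw [h] <;> norm_num
  rw [h, avg_const]

/-- The inner bound, for one fibre. -/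
lemma sub_mass_le {f : (ι → Bool) → ℝ} (hf : IsSign f) (K : Finset ι) (σ : ℕ → Equiv.Perm ι)
    (s D : ℕ) (hs : 0 < s) {τ : ℝ} (hτ : 0 < τ) (hin : ∀ r < s, ∀ i ∈ K, σ r i ∈ K)
    (hinj : ∀ i ∈ K, ∀ r < s, ∀ r' < s, σ r i = σ r' i → r = r') :
    ∑ T with T ⊆ K ∧ 1 ≤ T.card ∧ T.card ≤ D, coef f T ^ 2 ≤
      (2 * ∑ r ∈ range s, dis f (σ r) + ∑ i ∈ K, infl f i) / (s * τ)
        + 3 ^ D * Real.sqrt τ * ∑ i ∈ K, infl f i := by
  set I := ∑ i ∈ K, infl f i with hI
  set β := ∑ r ∈ range s, dis f (σ r) with hβ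
  have hI0 : 0 ≤ I := sum_nonneg fun i _ => infl_nonneg f i
  have hβ0 : 0 ≤ β := sum_nonneg fun r _ => avg_nonneg fun x => sq_nonneg _
  have hmax : ∀ i ∈ K, (s : ℝ) * infl f i ≤ 2 * β + I := fun i hi => by
    calc (s : ℝ) * infl f i = ∑ _r ∈ range s, infl f i := by simp
      _ ≤ ∑ r ∈ range s, (2 * dis f (σ r) + infl f (σ r i)) :=
          sum_le_sum fun r _ => infl_le_dis hf (σ r) i
      _ = 2 * β + ∑ r ∈ range s, infl f (σ r i) := by rw [sum_add_distrib, hβ, mul_sum]
      _ ≤ 2 * β + I := by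
          gcongr
          rw [← sum_image (g := fun r => σ r i) fun r hr r' hr' e =>
            hinj i hi r (mem_range.mp hr) r' (mem_range.mp hr') e]
          exact sum_le_sum_of_subset_of_nonneg (image_subset_iff.mpr fun r hr =>
            hin r (mem_range.mp hr) i hi) fun j _ _ => infl_nonneg f j
  by_cases h : ∀ i ∈ K, infl f i ≤ τ
  · refine le_trans ?_ (le_add_of_nonneg_left (by positivity))
    calc ∑ T with T ⊆ K ∧ 1 ≤ T.card ∧ T.card ≤ D, coef f T ^ 2
        ≤ ∑ T with T ⊆ K ∧ 1 ≤ T.card ∧ T.card ≤ D, ∑ i ∈ K,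
            if i ∈ T ∧ T.card ≤ D then coef f T ^ 2 else 0 := by
          refine sum_le_sum fun T hT => ?_
          obtain ⟨hTK, hT1, hTD⟩ := (mem_filter.mp hT).2
          obtain ⟨i, hi⟩ := card_pos.mp hT1
          refine le_trans (le_of_eq ?_) (single_le_sum (fun j _ => ?_) (hTK hi))
          · rw [if_pos ⟨hi, hTD⟩]
          · split_ifs
            · exact sq_nonneg _
            · exact le_rfl
      _ ≤ ∑ T, ∑ i ∈ K, if i ∈ T ∧ T.card ≤ D then coef f T ^ 2 else 0 :=
          sum_le_sum_of_subset_of_nonneg (subset_univ _) fun T _ _ => sum_nonneg fun i _ => by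
            split_ifs
            · exact sq_nonneg _
            · exact le_rfl
      _ = ∑ i ∈ K, ∑ T with i ∈ T ∧ T.card ≤ D, coef f T ^ 2 := by
          rw [sum_comm]
          exact sum_congr rfl fun i _ => (sum_filter _ _).symm
      _ ≤ ∑ i ∈ K, 3 ^ D * (infl f i * Real.sqrt τ) := by
          refine sum_le_sum fun i hi => (low_infl_le hf i D).trans ?_
          have h0 := infl_nonneg f i
          have := h i hi
          gcongr
      _ = 3 ^ D * Real.sqrt τ * I := by
          rw [hI, mul_sum]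
          exact sum_congr rfl fun i _ => by ring
  · push Not at h
    obtain ⟨i, hi, hiτ⟩ := h
    refine le_trans ?_ (le_add_of_nonneg_right
      (mul_nonneg (mul_nonneg (pow_nonneg (by norm_num : (0 : ℝ) ≤ 3) D) (Real.sqrt_nonneg τ)) hI0))
    refine le_trans (sum_le_sum_of_subset_of_nonneg (f := fun T => coef f T ^ 2) (subset_univ _)
      fun T _ _ => sq_nonneg _) ?_
    rw [sum_coef_sq hf, one_le_div (by positivity)]
    exact le_trans (mul_le_mul_of_nonneg_left hiτ.le (by positivity)) (hmax i hi)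

/-- The restriction to the window `K`, the other positions read from `y`. -/
def fib (f : (ι → Bool) → ℝ) (K : Finset ι) (y : ι → Bool) (x : ι → Bool) : ℝ :=
  f (K.piecewise x y)

lemma avg_fib (K : Finset ι) (h : (ι → Bool) → ℝ) :
    avg (fun y => avg fun x => h (K.piecewise x y)) = avg h := by
  have hE : Function.Involutive fun p : (ι → Bool) × (ι → Bool) =>
      (K.piecewise p.2 p.1, K.piecewise p.1 p.2) := by
    intro p
    ext i <;> by_cases hi : i ∈ K <;> simp [hi]
  simp only [avg, ← sum_div]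
  congr 1
  rw [← Fintype.sum_prod_type']
  rw [Fintype.sum_equiv hE.toPerm (fun p => h (K.piecewise p.2 p.1)) (fun p => h p.1) fun p => rfl,
    Fintype.sum_prod_type]
  simp [← mul_sum]

omit [Fintype ι] in
lemma chi_piecewise (K S : Finset ι) (x y : ι → Bool) :
    chi S (K.piecewise x y) = chi (S ∩ K) x * chi (S \ K) y := by
  have h : S = (S ∩ K) ∪ (S \ K) := by rw [union_comm, sdiff_union_inter]
  conv_lhs => rw [h, chi_union (disjoint_sdiff_inter S K).symm]
  congr 1 <;> refine chi_congr fun i hi => ?_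
  · simp [(mem_inter.mp hi).2]
  · simp [(mem_sdiff.mp hi).2]

lemma coef_fib (f : (ι → Bool) → ℝ) (K : Finset ι) (y : ι → Bool) (T : Finset ι) :
    coef (fib f K y) T = ∑ S with S ∩ K = T, coef f S * chi (S \ K) y := by
  have e : (fun x => fib f K y x * chi T x) = fun x => ∑ S : Finset ι,
      (coef f S * chi (S \ K) y) * (chi (S ∩ K) x * chi T x) := by
    funext x
    rw [fib, expansion f, sum_mul]
    refine sum_congr rfl fun S _ => ?_
    rw [chi_piecewise]
    ring
  rw [coef, e, avg_sum, sum_filter]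
  refine sum_congr rfl fun S _ => ?_
  rw [avg_smul, avg_chi_mul]
  split_ifs <;> simp

lemma avg_coef_fib (f : (ι → Bool) → ℝ) (K T : Finset ι) :
    avg (fun y => coef (fib f K y) T ^ 2) = ∑ S with S ∩ K = T, coef f S ^ 2 := by
  simp only [coef_fib, sq, sum_mul_sum, avg_sum]
  refine sum_congr rfl fun S hS => ?_
  have e : ∀ S', avg (fun y => coef f S * chi (S \ K) y * (coef f S' * chi (S' \ K) y))
      = coef f S * coef f S' * if S \ K = S' \ K then 1 else 0 := fun S' => by
    rw [← avg_chi_mul, ← avg_smul]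
    congr 1
    funext y
    ring
  simp only [e]
  rw [sum_eq_single_of_mem S hS]
  · simp
  · intro S' hS' hne
    rw [if_neg, mul_zero]
    intro h
    apply hne
    rw [← sdiff_union_inter S' K, ← sdiff_union_inter S K, ← h, (mem_filter.mp hS).2,
      (mem_filter.mp hS').2]

/-- Low mass in a window, from its rotations and its influences. -/
theorem lowMass_le {f : (ι → Bool) → ℝ} (hf : IsSign f) (K : Finset ι) (σ : ℕ → Equiv.Perm ι)
    (s D : ℕ) (hs : 0 < s) {τ : ℝ} (hτ : 0 < τ) (hin : ∀ r < s, ∀ i ∈ K, σ r i ∈ K)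
    (hout : ∀ r < s, ∀ i ∉ K, σ r i = i)
    (hinj : ∀ i ∈ K, ∀ r < s, ∀ r' < s, σ r i = σ r' i → r = r') :
    lowMass f K D ≤ (2 * ∑ r ∈ range s, dis f (σ r) + ∑ i ∈ K, infl f i) / (s * τ)
        + 3 ^ D * Real.sqrt τ * ∑ i ∈ K, infl f i := by
  have h1 : lowMass f K D = avg fun y =>
      ∑ T with T ⊆ K ∧ 1 ≤ T.card ∧ T.card ≤ D, coef (fib f K y) T ^ 2 := by
    rw [avg_sum]
    simp only [avg_coef_fib]
    rw [lowMass, ← sum_fiberwise_of_maps_to (g := fun S => S ∩ K)
      (t := univ.filter fun T => T ⊆ K ∧ 1 ≤ T.card ∧ T.card ≤ D)]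
    · refine sum_congr rfl fun T hT => sum_congr ?_ fun _ _ => rfl
      ext S
      simp only [mem_filter, mem_univ, true_and] at hT ⊢
      exact ⟨fun h => h.2, fun h => ⟨by rw [h]; exact hT.2, h⟩⟩
    · intro S hS
      simp only [mem_filter, mem_univ, true_and] at hS ⊢
      exact ⟨inter_subset_right, hS⟩
  have h2 : ∀ r < s, avg (fun y => dis (fib f K y) (σ r)) = dis f (σ r) := fun r hr => by
    have e : ∀ x y : ι → Bool, K.piecewise (x ∘ σ r) y = K.piecewise x y ∘ σ r := fun x y => by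
      funext i
      by_cases hi : i ∈ K
      · simp [hi, hin r hr i hi]
      · simp [hi, hout r hr i hi]
    rw [dis, ← avg_fib K fun x => ((f x - f (x ∘ σ r)) / 2) ^ 2]
    simp only [dis, fib, e]
  have h3 : ∀ i ∈ K, avg (fun y => infl (fib f K y) i) = infl f i := fun i hi => by
    have e : ∀ x y : ι → Bool, K.piecewise (flipAt i x) y = flipAt i (K.piecewise x y) := fun x y => by
      funext j
      by_cases hj : j = i
      · subst hj; simp [flipAt, hi]
      · simp [flipAt, Function.update_of_ne hj, piecewise]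
    rw [infl, ← avg_fib K fun x => ((f x - f (flipAt i x)) / 2) ^ 2]
    simp only [infl, fib, e]
  rw [h1]
  refine (avg_mono fun y => sub_mass_le (f := fib f K y) (fun x => hf _) K σ s D hs hτ hin
    hinj).trans (le_of_eq ?_)
  rw [avg_add, avg_smul]
  simp only [div_eq_mul_inv, mul_comm _ ((s : ℝ) * τ)⁻¹]
  rw [avg_smul, avg_add, avg_smul, avg_sum, avg_sum, sum_congr rfl fun r hr =>
    h2 r (mem_range.mp hr), sum_congr rfl h3]

end Vale.Agent.P238
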