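import Vale.Agent.P238.Split

/-!
# The inequality for cuts, summed over the scales
-/

namespace Vale.Agent.P238

open Finset
open Vale.Agent.P063

variable {n : ℕ}

lemma dis_nonneg (f : (Fin n → Bool) → ℝ) (σ : Equiv.Perm (Fin n)) : 0 ≤ dis f σ :=
  avg_nonneg fun _ => sq_nonneg _

lemma div_lt_count {g l top : ℕ} (hg : 0 < g) (hl : l ≤ top) (s : ℕ) :
    s / g ^ l < g ^ (top - l) ↔ s < g ^ top := by
  rw [Nat.div_lt_iff_lt_mul (pow_pos hg l), ← pow_add, Nat.sub_add_cancel hl]

lemma sum_nb {g l top : ℕ} (hg : 0 < g) (hl : l ≤ top) (S : Finset (Fin n)) :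
    ∑ i ∈ range (g ^ (top - l)), nb g l i S = nb g top 0 S := by
  rw [nb, card_eq_sum_card_fiberwise (f := fun s : Fin n => (s : ℕ) / g ^ l)
    (t := range (g ^ (top - l)))]
  · refine sum_congr rfl fun i hi => ?_
    rw [nb, filter_filter]
    refine congrArg card (filter_congr fun s _ => ⟨fun h => ⟨?_, h⟩, fun h => h.2⟩)
    rw [Nat.div_eq_zero_iff]
    exact Or.inr ((div_lt_count hg hl _).mp (h ▸ mem_range.mp hi))
  · intro s hs
    simp only [mem_coe, mem_filter, Nat.div_eq_zero_iff] at hs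
    simp only [mem_coe, mem_range, div_lt_count hg hl]
    exact hs.2.resolve_left (pow_pos hg _).ne'

lemma inflSum_eq {g top : ℕ} (hg : 0 < g) (f : (Fin n → Bool) → ℝ) :
    inflSum g top f = ∑ S, coef f S ^ 2 * (nb g top 0 S : ℝ) := by
  unfold inflSum
  simp only [infl_eq, sum_filter (p := fun S : Finset (Fin n) => _ ∈ S)]
  rw [sum_comm]
  refine sum_congr rfl fun S _ => ?_
  rw [← sum_filter, sum_const, nsmul_eq_mul, mul_comm]
  congr 2
  unfold nb
  congr 1
  ext s
  simp [hg.ne', and_comm]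

lemma inflSum_nonneg (g top : ℕ) (f : (Fin n → Bool) → ℝ) : 0 ≤ inflSum g top f :=
  sum_nonneg fun _ _ => infl_nonneg f _

lemma sum_block_infl {g l top : ℕ} (hg : 0 < g) (hl : l ≤ top) (f : (Fin n → Bool) → ℝ) :
    ∑ i ∈ range (g ^ (top - l)), ∑ s ∈ block n g l i, infl f s = inflSum g top f := by
  unfold inflSum
  rw [← sum_fiberwise_of_maps_to (s := univ.filter fun s : Fin n => (s : ℕ) < g ^ top)
    (g := fun s : Fin n => (s : ℕ) / g ^ l) (t := range (g ^ (top - l)))]
  · refine sum_congr rfl fun i hi => sum_congr ?_ fun _ _ => rfl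
    ext s
    simp only [block, mem_filter, mem_univ, true_and]
    exact ⟨fun h => ⟨(div_lt_count hg hl _).mp (h ▸ mem_range.mp hi), h⟩, fun h => h.2⟩
  · intro s hs
    exact mem_range.mpr ((div_lt_count hg hl _).mpr (mem_filter.mp hs).2)

open Classical in
lemma sum_lowMass (g l D N : ℕ) (f : (Fin n → Bool) → ℝ) :
    ∑ i ∈ range N, lowMass f (block n g l i) D
      = ∑ S, coef f S ^ 2 * (#{i ∈ range N | 1 ≤ nb g l i S ∧ nb g l i S ≤ D} : ℝ) := by
  have e : ∀ (S : Finset (Fin n)) (i : ℕ), (S ∩ block n g l i).card = nb g l i S := fun S i => by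
    unfold nb block
    congr 1
    ext s
    simp
  simp only [lowMass, e, sum_filter]
  rw [sum_comm]
  refine sum_congr rfl fun S _ => ?_
  rw [← sum_filter, sum_const, nsmul_eq_mul, mul_comm]

/-- The low mass of all intervals of one scale. -/
lemma low_scale {f : (Fin n → Bool) → ℝ} (hf : IsSign f) {g l top s D : ℕ} {τ : ℝ} (hg : 0 < g)
    (hl : l ≤ top) (hn : g ^ top ≤ n) (hs : 0 < s) (hsl : s ≤ g ^ l) (hτ : 0 < τ) :
    ∑ i ∈ range (g ^ (top - l)), lowMass f (block n g l i) D ≤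
      (2 * ∑ i ∈ range (g ^ (top - l)), ∑ r ∈ range s, dis f (brot g l i r) + inflSum g top f)
          / (s * τ) + 3 ^ D * Real.sqrt τ * inflSum g top f := by
  refine le_trans (sum_le_sum fun i hi => lowMass_le hf (block n g l i) (brot g l i) s D hs hτ
    (fun r _ x hx => ?_) (fun r _ x hx => ?_) fun x hx r hr r' hr' e => ?_) (le_of_eq ?_)
  · simp only [block, mem_filter, mem_univ, true_and] at hx ⊢
    exact brot_div hg (block_fit hl hn (mem_range.mp hi)) hx
  · simp only [block, mem_filter, mem_univ, true_and] at hx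
    exact brot_out hg hx
  · simp only [block, mem_filter, mem_univ, true_and] at hx
    have e' := congrArg Fin.val e
    rw [brot_val hg (block_fit hl hn (mem_range.mp hi)) hx,
      brot_val hg (block_fit hl hn (mem_range.mp hi)) hx, Nat.add_left_cancel_iff] at e'
    have h2 : r % g ^ l = r' % g ^ l := Nat.ModEq.add_left_cancel' _ e'
    rwa [Nat.mod_eq_of_lt (by omega), Nat.mod_eq_of_lt (by omega)] at h2
  · rw [sum_add_distrib, ← sum_div, sum_add_distrib, ← mul_sum, ← mul_sum,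
      sum_block_infl hg hl]

open Classical in
lemma normal_level {f : (Fin n → Bool) → ℝ} {g k l top : ℕ} (hg : 0 < g) (hk : 0 < k)
    (hl : l + 2 ≤ top) (hn : g ^ top ≤ n) :
    (k : ℝ) * ((∑ i ∈ range (g ^ (top - (l + 1))), ∑ r ∈ amounts (g ^ (l + 1)),
        dis f (brot g (l + 1) i r)) / (amounts (g ^ (l + 1))).card) ≤
      4 * k * ((∑ i ∈ range (g ^ (top - (l + 2))), ∑ r ∈ amounts (g ^ (l + 1)),
        dis f (brot g (l + 2) i r)) / (amounts (g ^ (l + 1))).card)
      + k * ∑ i ∈ range (g ^ (top - (l + 1))), lowMass f (block n g (l + 1) i) (2 * k)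
      + k * ∑ i ∈ range (g ^ (top - l)), lowMass f (block n g l i) (2 * k)
      + ∑ S, coef f S ^ 2 * ((k * #{i ∈ range (g ^ (top - (l + 1))) | Charged g k l i S} : ℕ) : ℝ)
      + inflSum g top f / g := by
  set A := ((amounts (g ^ (l + 1))).card : ℝ) with hA
  have hc := card_amounts (g ^ (l + 1))
  have hwpos := pow_pos hg (l + 1)
  have hApos : 0 < A := by rw [hA]; exact_mod_cast (show 0 < (amounts (g ^ (l + 1))).card by omega)
  have hg' : (0 : ℝ) < g := by exact_mod_cast hg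
  rw [sum_lowMass, sum_lowMass, inflSum_eq hg, sum_div (s := univ), mul_sum (a := (k : ℝ)) (s := univ),
    mul_sum (a := (k : ℝ)) (s := univ), add_assoc, add_assoc, add_assoc, ← sum_add_distrib,
    ← sum_add_distrib, ← sum_add_distrib]
  have hmain := mul_le_mul_of_nonneg_left
    ((div_le_div_iff_of_pos_right hApos).mpr (per_level (f := f) (k := k) hg hk hl hn))
    (Nat.cast_nonneg k)
  refine hmain.trans ?_
  rw [add_div, mul_add, sum_div (s := univ), mul_sum (a := (k : ℝ)) (s := univ)]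
  refine add_le_add (le_of_eq (by ring)) (sum_le_sum fun S _ => ?_)
  set a := #{i ∈ range (g ^ (top - (l + 1))) | 1 ≤ nb g (l + 1) i S ∧ nb g (l + 1) i S ≤ 2 * k}
  set lo := #{i ∈ range (g ^ (top - (l + 1))) | Loose g k l i S}
  set ch := #{i ∈ range (g ^ (top - (l + 1))) | Charged g k l i S}
  set b := #{i ∈ range (g ^ (top - l)) | 1 ≤ nb g l i S ∧ nb g l i S ≤ 2 * k}
  set q := #{i ∈ range (g ^ (top - (l + 1))) | 2 * k ≤ nb g (l + 1) i S}
  have hlo : lo ≤ b := by
    have e1 : g ^ (top - (l + 1)) = g ^ (top - (l + 2)) * g := by rw [← pow_succ]; congr 1; omega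
    have e2 : g ^ (top - l) = g ^ (top - (l + 2)) * g * g := by
      rw [← pow_succ, ← pow_succ]; congr 1; omega
    simp only [lo, b, e1, e2]
    refine (loose_le_low hg k l _ S).trans (card_le_card fun i hi => ?_)
    rw [mem_filter] at hi ⊢
    exact ⟨hi.1, hi.2.1, by omega⟩
  have hq : k * g ^ l * q * g ≤ (amounts (g ^ (l + 1))).card * nb g top 0 S := by
    have h1 : q * (2 * k) ≤ nb g top 0 S := by
      rw [← sum_nb hg (show l + 1 ≤ top by omega), ← smul_eq_mul]
      exact (card_nsmul_le_sum _ _ _ fun i hi => (mem_filter.mp hi).2).trans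
        (sum_le_sum_of_subset (filter_subset _ _))
    calc k * g ^ l * q * g = g ^ (l + 1) * (q * k) := by ring
      _ ≤ 2 * (amounts (g ^ (l + 1))).card * (q * k) := Nat.mul_le_mul_right _ hc
      _ = (amounts (g ^ (l + 1))).card * (q * (2 * k)) := by ring
      _ ≤ _ := Nat.mul_le_mul_left _ h1
  have hq' : (k : ℝ) * (g ^ l * q) / A ≤ nb g top 0 S / g := by
    rw [div_le_div_iff₀ hApos hg', hA]
    have : ((k * g ^ l * q * g : ℕ) : ℝ) ≤ _ := Nat.cast_le.mpr hq
    push_cast at this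
    linarith
  have hlo' : (k : ℝ) * lo ≤ k * b := by gcongr
  push_cast
  have hA' : ((amounts (g ^ (l + 1))).card : ℝ) = A := hA.symm
  rw [hA']
  have e : (k : ℝ) * (coef f S ^ 2 * (A * (a + lo + ch) + g ^ l * q) / A)
      = coef f S ^ 2 * (k * a + k * lo + k * ch + k * (g ^ l * q) / A) := by
    field_simp
  rw [e]
  have := mul_le_mul_of_nonneg_left (show (k : ℝ) * a + k * lo + k * ch + k * (g ^ l * q) / A
    ≤ k * a + k * b + k * ch + nb g top 0 S / g by linarith) (sq_nonneg (coef f S))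
  refine this.trans (le_of_eq ?_)
  ring

open Classical in
/-- The inequality for sign functions over all scales. -/
theorem cut_bound {f : (Fin n → Bool) → ℝ} (hf : IsSign f) {g h b top s : ℕ} {τ : ℝ}
    (hg : 0 < g) (hh : 0 < h) (hbt : b + 2 ≤ top) (hn : g ^ top ≤ n) (hs : 0 < s)
    (hsb : s ≤ g ^ b) (hτ : 0 < τ) :
    (2 * h : ℕ) * ∑ l ∈ Ico b (top - 1), (∑ i ∈ range (g ^ (top - (l + 1))),
        ∑ r ∈ amounts (g ^ (l + 1)), dis f (brot g (l + 1) i r))
          / (amounts (g ^ (l + 1))).card ≤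
      4 * (2 * h : ℕ) * ∑ l ∈ Ico b (top - 1), (∑ i ∈ range (g ^ (top - (l + 2))),
        ∑ r ∈ amounts (g ^ (l + 1)), dis f (brot g (l + 2) i r))
          / (amounts (g ^ (l + 1))).card
      + 4 * (2 * h : ℕ) / (s * τ) * ∑ l ∈ Ico b top, ∑ i ∈ range (g ^ (top - l)),
          ∑ r ∈ range s, dis f (brot g l i r)
      + (6 + (top - b : ℕ) / g + 2 * (2 * h : ℕ) * (top - b : ℕ)
          * (1 / (s * τ) + 3 ^ (2 * (2 * h)) * Real.sqrt τ)) * inflSum g top f := by
  set k := 2 * h with hk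
  set I := inflSum g top f with hI
  have hI0 : 0 ≤ I := inflSum_nonneg g top f
  let Low : ℕ → ℝ := fun l => ∑ i ∈ range (g ^ (top - l)), lowMass f (block n g l i) (2 * k)
  let Sm : ℕ → ℝ := fun l => ∑ i ∈ range (g ^ (top - l)), ∑ r ∈ range s, dis f (brot g l i r)
  have hLow0 : ∀ l, 0 ≤ Low l := fun l => sum_nonneg fun i _ => sum_nonneg fun S _ => sq_nonneg _
  rw [mul_sum (a := ((k : ℕ) : ℝ))]
  refine (sum_le_sum fun l hl => normal_level (k := k) hg (by omega)
    (by rw [mem_Ico] at hl; omega) hn).trans ?_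
  rw [sum_add_distrib, sum_add_distrib, sum_add_distrib, sum_add_distrib, ← mul_sum, ← mul_sum,
    ← mul_sum]
  have hL : ∑ l ∈ Ico b top, Low l ≤ (2 * ∑ l ∈ Ico b top, Sm l + (top - b : ℕ) * I) / (s * τ)
      + (top - b : ℕ) * (3 ^ (2 * k) * Real.sqrt τ * I) := by
    refine (sum_le_sum fun l hl => low_scale (l := l) hf hg (by rw [mem_Ico] at hl; omega) hn hs
      (hsb.trans (Nat.pow_le_pow_right hg (by rw [mem_Ico] at hl; omega))) hτ).trans (le_of_eq ?_)
    rw [sum_add_distrib, ← sum_div, sum_add_distrib, ← mul_sum, sum_const, sum_const,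
      Nat.card_Ico, nsmul_eq_mul, nsmul_eq_mul]
  have h1 : ∑ l ∈ Ico b (top - 1), Low l ≤ ∑ l ∈ Ico b top, Low l :=
    sum_le_sum_of_subset_of_nonneg (Ico_subset_Ico le_rfl (by omega)) fun l _ _ => hLow0 l
  have h2 : ∑ l ∈ Ico b (top - 1), Low (l + 1) ≤ ∑ l ∈ Ico b top, Low l := by
    rw [sum_Ico_add' Low]
    exact sum_le_sum_of_subset_of_nonneg (Ico_subset_Ico (by omega) (by omega))
      fun l _ _ => hLow0 l
  have hk0 : (0 : ℝ) ≤ k := Nat.cast_nonneg _
  have hC : ∑ l ∈ Ico b (top - 1), ∑ S, coef f S ^ 2 *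
      ((k * #{i ∈ range (g ^ (top - (l + 1))) | Charged g k l i S} : ℕ) : ℝ) ≤ 6 * I := by
    rw [sum_comm, hI, inflSum_eq hg, mul_sum]
    refine sum_le_sum fun S _ => ?_
    rw [← mul_sum, mul_left_comm]
    refine mul_le_mul_of_nonneg_left ?_ (sq_nonneg _)
    rw [← Nat.cast_sum, ← mul_sum]
    have := charged_count hg h b top S
    rw [← hk] at this
    have h6 : k * ∑ l ∈ Ico b (top - 1), #{i ∈ range (g ^ (top - (l + 1))) | Charged g k l i S}
        ≤ 6 * nb g top 0 S := by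
      rw [hk, Nat.mul_assoc]
      rw [hk] at this
      omega
    exact_mod_cast h6
  have hG : ∑ _l ∈ Ico b (top - 1), I / g ≤ (top - b : ℕ) / g * I := by
    rw [sum_const, Nat.card_Ico, nsmul_eq_mul, div_mul_eq_mul_div, mul_div_assoc]
    gcongr
    omega
  have h12 := mul_le_mul_of_nonneg_left (add_le_add h1 h2) hk0
  have hL' := mul_le_mul_of_nonneg_left hL (by positivity : (0 : ℝ) ≤ 2 * k)
  have e : (2 * (k : ℝ)) * ((2 * ∑ l ∈ Ico b top, Sm l + (top - b : ℕ) * I) / (s * τ)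
        + (top - b : ℕ) * (3 ^ (2 * k) * Real.sqrt τ * I))
      = 4 * k / (s * τ) * ∑ l ∈ Ico b top, Sm l + 2 * k * (top - b : ℕ)
          * (1 / (s * τ) + 3 ^ (2 * k) * Real.sqrt τ) * I := by
    field_simp
    ring
  simp only [Low, Sm] at h12 hL' e ⊢
  linarith

end Vale.Agent.P238
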