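import Vale.Agent.P238.Levels
import Vale.Agent.P238.Cuts
import Vale.Agent.P238.Far

/-!
# The lower bound for the distortion of edit distance
-/

namespace Vale.Agent.P238

open Finset
open Vale.Agent.P063

variable {n : ℕ}

/-- The average of a distance over the pairs `(x, u x)`. -/
noncomputable def pairAvg (u : (Fin n → Bool) → (Fin n → Bool)) :
    ((Fin n → Bool) → (Fin n → Bool) → ℝ) →ₗ[ℝ] ℝ where
  toFun δ := avg fun x => δ x (u x)
  map_add' δ δ' := avg_add (fun x => δ x (u x)) fun x => δ' x (u x)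
  map_smul' c δ := avg_smul c fun x => δ x (u x)

lemma brot_comp (g l i r : ℕ) (x : Fin n → Bool) :
    x ∘ brot g l i r = rotWord (i * g ^ l) (g ^ l) r x := rfl

lemma one_le_ED {x y : List Bool} (h : x ≠ y) : 1 ≤ ED x y := by
  by_contra h0
  have h1 : Edits (ED x y) x y := Nat.sInf_mem (edits_exists x y)
  rw [show ED x y = 0 by omega] at h1
  cases h1
  exact h rfl

/-- The bound for fixed parameters. -/
theorem fixed_bound {a p h : ℕ} (ha : 6 ≤ a) (hp : 0 < p) (hh : 0 < h)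
    (hn : (2 ^ a) ^ (12 * p) ≤ n) (F : (Fin n → Bool) → lp (fun _ : ℕ => ℝ) 1) {A B : ℝ}
    (hA : ∀ x y, ‖F x - F y‖ ≤ A * ED (List.ofFn x) (List.ofFn y))
    (hB : ∀ x y, (ED (List.ofFn x) (List.ofFn y) : ℝ) ≤ B * ‖F x - F y‖) :
    ((2 * h : ℕ) : ℝ) * (6 * p - 1 : ℕ) / 128 ≤ A * B *
      (6 + (6 * p : ℕ) / ((2 ^ a : ℕ) : ℝ) + 8 * (2 * h : ℕ) * (6 * p : ℕ) / ((2 ^ a : ℕ) : ℝ)
        + 12 * (2 * h : ℕ) * (6 * p : ℕ) * (3 : ℝ) ^ (2 * (2 * h))
          / ((2 ^ a : ℕ) : ℝ) ^ p) := by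
  obtain ⟨g, hgdef⟩ : ∃ g : ℕ, g = 2 ^ a := ⟨_, rfl⟩
  rw [← hgdef] at hn ⊢
  set k := 2 * h with hk
  set top := 12 * p with htop
  set b := 6 * p with hb
  set s := g ^ (3 * p) with hs
  have hg : 0 < g := hgdef ▸ Nat.two_pow_pos a
  have hg1 : (1 : ℝ) ≤ g := by exact_mod_cast hg
  have hg64 : ∃ g', g = 64 * g' := ⟨2 ^ (a - 6), by
    rw [hgdef, show (64 : ℕ) = 2 ^ 6 by norm_num, ← pow_add]; congr 1; omega⟩
  have hn0 : 0 < n := lt_of_lt_of_le (pow_pos hg top) hn
  -- the constants are positive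
  obtain ⟨hA0, hB0⟩ : 0 ≤ A ∧ 0 ≤ B := by
    let x : Fin n → Bool := fun _ => false
    let y : Fin n → Bool := fun _ => true
    have hne : List.ofFn x ≠ List.ofFn y := fun e => by
      have := congrFun (List.ofFn_injective e) ⟨0, hn0⟩
      simp [x, y] at this
    have h1 : (1 : ℝ) ≤ ED (List.ofFn x) (List.ofFn y) := by exact_mod_cast one_le_ED hne
    have h2 := hB x y
    have h3 := hA x y
    have h4 := norm_nonneg (F x - F y)
    exact ⟨by nlinarith, by nlinarith⟩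
  let d : ℝ := (g : ℝ) ^ top
  have hd : 0 < d := by positivity
  let τ : ℝ := 1 / (g : ℝ) ^ (2 * p)
  have hτ : 0 < τ := by positivity
  have hgp : (s : ℝ) * τ = (g : ℝ) ^ p := by
    simp only [τ, hs, Nat.cast_pow]
    field_simp
    rw [← pow_add]
    congr 1
    omega
  have hsq : Real.sqrt τ = 1 / (g : ℝ) ^ p := by
    simp only [τ, pow_mul']
    rw [show 1 / ((g : ℝ) ^ p) ^ 2 = (1 / (g : ℝ) ^ p) ^ 2 by ring, Real.sqrt_sq (by positivity)]
  set C : ℝ := 6 + (b : ℝ) / g + 2 * k * b * (1 / (g : ℝ) ^ p + 3 ^ (2 * k) * (1 / (g : ℝ) ^ p))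
    with hC
  let G (l : ℕ) := ((amounts (g ^ (l + 1))).card : ℝ)⁻¹ •
    ∑ i ∈ range (g ^ (top - (l + 1))), ∑ r ∈ amounts (g ^ (l + 1)),
      pairAvg (n := n) fun x => x ∘ brot g (l + 1) i r
  let P (l : ℕ) := ((amounts (g ^ (l + 1))).card : ℝ)⁻¹ •
    ∑ i ∈ range (g ^ (top - (l + 2))), ∑ r ∈ amounts (g ^ (l + 1)),
      pairAvg (n := n) fun x => x ∘ brot g (l + 2) i r
  let Sm (l : ℕ) :=
    ∑ i ∈ range (g ^ (top - l)), ∑ r ∈ range s, pairAvg (n := n) fun x => x ∘ brot g l i r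
  let Fl := ∑ i with (i : Fin n).val < g ^ top, pairAvg (n := n) (flipAt i)
  let Φ := (k : ℝ) • ∑ l ∈ Ico b (top - 1), G l - (4 * k : ℝ) • ∑ l ∈ Ico b (top - 1), P l
    - (4 * k / (g : ℝ) ^ p) • ∑ l ∈ Ico b top, Sm l - C • Fl
  have hcut : ∀ χ : (Fin n → Bool) → ℝ, (∀ x, χ x = 1 ∨ χ x = -1) →
      Φ (fun x y => ((χ x - χ y) / 2) ^ 2) ≤ 0 := by
    intro χ hχ
    have h1 := cut_bound (f := χ) hχ hg hh (show b + 2 ≤ top by omega) hn (s := s) (pow_pos hg _)
      (Nat.pow_le_pow_right hg (by omega)) hτ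
    rw [hgp, hsq, show top - b = b by omega] at h1
    simp only [Φ, G, P, Sm, Fl, LinearMap.sub_apply, LinearMap.smul_apply, LinearMap.sum_apply,
      smul_eq_mul]
    simp only [pairAvg, LinearMap.coe_mk, AddHom.coe_mk, inflSum, infl, dis, div_eq_inv_mul] at h1 ⊢
    simp only [hC, div_eq_inv_mul] at h1 ⊢
    linarith
  have main := l1_of_cuts Φ hcut F
  let δ : (Fin n → Bool) → (Fin n → Bool) → ℝ := fun x y => ‖F x - F y‖
  have up : ∀ (u : (Fin n → Bool) → (Fin n → Bool)) (m : ℕ),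
      (∀ x, ED (List.ofFn x) (List.ofFn (u x)) ≤ m) → pairAvg u δ ≤ A * m := by
    intro u m hm
    refine (avg_mono (g := fun _ => A * (m : ℝ)) fun x => ?_).trans (avg_const _).le
    exact (hA x (u x)).trans (mul_le_mul_of_nonneg_left (by exact_mod_cast hm x) hA0)
  have hGlow : ∀ l ∈ Ico b (top - 1), d / 128 ≤ B * G l δ := by
    intro l hl
    rw [mem_Ico] at hl
    obtain ⟨g', hg'⟩ := hg64
    set q := g' * g ^ l with hq
    have hw : g ^ (l + 1) = 64 * q := by rw [pow_succ, hq, hg']; ring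
    have hq0 : 0 < q := Nat.mul_pos (by omega) (pow_pos hg l)
    have hc : (0 : ℝ) < (amounts (g ^ (l + 1))).card := by
      have := card_amounts (g ^ (l + 1))
      exact_mod_cast (show 0 < (amounts (g ^ (l + 1))).card by omega)
    have one : ∀ i ∈ range (g ^ (top - (l + 1))), ∀ r ∈ amounts (g ^ (l + 1)),
        (q : ℝ) / 2 ≤ B * pairAvg (fun x => x ∘ brot g (l + 1) i r) δ := by
      intro i hi r hr
      simp only [amounts, mem_Icc] at hr
      have hfar := ed_rot_far (n := n) (r := r) (block_fit (show l + 1 ≤ top by omega) hn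
        (mem_range.mp hi)) hq0 hw (by omega) (by omega)
      show (q : ℝ) / 2 ≤ B * avg fun x => δ x (x ∘ brot g (l + 1) i r)
      rw [← avg_smul]
      refine le_trans ?_ (avg_mono (f := fun x : Fin n → Bool =>
        (ED (List.ofFn x) (List.ofFn (x ∘ brot g (l + 1) i r)) : ℝ)) fun x => hB _ _)
      simp only [brot_comp, avg, Fintype.card_fin]
      rw [div_le_div_iff₀ two_pos (by positivity), mul_comm _ (2 : ℝ)]
      exact_mod_cast hfar
    simp only [G, LinearMap.smul_apply, LinearMap.sum_apply, smul_eq_mul]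
    rw [mul_left_comm, inv_mul_eq_div, le_div_iff₀ hc]
    simp only [mul_sum]
    refine le_trans (le_of_eq ?_) (sum_le_sum fun i hi => sum_le_sum fun r hr => one i hi r hr)
    simp only [sum_const, card_range, nsmul_eq_mul, d, Nat.cast_pow]
    have e : ((g : ℝ)) ^ top = (g : ℝ) ^ (top - (l + 1)) * (64 * (q : ℝ)) := by
      rw [show (64 * (q : ℝ)) = ((g ^ (l + 1) : ℕ) : ℝ) by rw [hw]; push_cast; ring, Nat.cast_pow,
        ← pow_add]
      congr 1
      omega
    rw [e]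
    ring
  have hPar : ∀ l ∈ Ico b (top - 1), P l δ ≤ 2 * A * d / g := by
    intro l hl
    rw [mem_Ico] at hl
    have hc : (0 : ℝ) < (amounts (g ^ (l + 1))).card := by
      have := card_amounts (g ^ (l + 1))
      have := pow_pos hg (l + 1)
      exact_mod_cast (show 0 < (amounts (g ^ (l + 1))).card by omega)
    simp only [P, LinearMap.smul_apply, LinearMap.sum_apply, smul_eq_mul]
    rw [inv_mul_eq_div, div_le_iff₀ hc]
    refine le_trans (sum_le_sum fun i _ => sum_le_sum fun r hr => up _ (2 * g ^ (l + 1)) fun x => ?_)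
      (le_of_eq ?_)
    · rw [brot_comp]
      have h1 := amounts_le hr
      exact (ed_rot_le x (h1.trans (Nat.pow_le_pow_right hg (by omega)))).trans (by omega)
    · simp only [sum_const, card_range, nsmul_eq_mul, d, Nat.cast_mul, Nat.cast_pow, Nat.cast_ofNat]
      have e : (g : ℝ) ^ top = (g : ℝ) ^ (top - (l + 2)) * (g : ℝ) ^ (l + 1) * g := by
        rw [mul_assoc, ← pow_succ, ← pow_add]; congr 1; omega
      rw [e]
      field_simp
  have hSm : ∀ l ∈ Ico b top, Sm l δ ≤ 2 * A * d := by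
    intro l hl
    rw [mem_Ico] at hl
    simp only [Sm, LinearMap.sum_apply]
    refine le_trans (sum_le_sum fun i _ => sum_le_sum fun r hr => up _ (2 * s) fun x => ?_) ?_
    · rw [brot_comp]
      have h1 := mem_range.mp hr
      have h2 : s ≤ g ^ l := Nat.pow_le_pow_right hg (by omega)
      exact (ed_rot_le x (by omega)).trans (by omega)
    · simp only [sum_const, card_range, nsmul_eq_mul, d]
      have e : g ^ (top - l) * (s * s) ≤ g ^ top := by
        rw [hs, ← pow_add, ← pow_add]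
        exact Nat.pow_le_pow_right hg (by omega)
      have e' : ((g ^ (top - l) * (s * s) : ℕ) : ℝ) ≤ ((g ^ top : ℕ) : ℝ) := Nat.cast_le.mpr e
      push_cast at e' ⊢
      nlinarith [mul_le_mul_of_nonneg_left e' hA0]
  have hFl : Fl δ ≤ A * d := by
    simp only [Fl, LinearMap.sum_apply]
    refine le_trans (sum_le_sum fun i _ => up _ 1 fun x => ed_flip_le x i) ?_
    rw [sum_const, nsmul_eq_mul, Nat.cast_one, mul_one, mul_comm]
    refine mul_le_mul_of_nonneg_left ?_ hA0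
    have := card_le_card_of_injOn (t := range (g ^ top)) (fun i : Fin n => (i : ℕ))
      (s := univ.filter fun i : Fin n => (i : ℕ) < g ^ top)
      (fun i hi => mem_range.mpr (mem_filter.mp hi).2) (fun i _ j _ e => Fin.ext e)
    rw [card_range] at this
    show _ ≤ (g : ℝ) ^ top
    exact_mod_cast this
  have hcard1 : (Ico b (top - 1)).card = b - 1 := by rw [Nat.card_Ico]; omega
  have hcard2 : (Ico b top).card = b := by rw [Nat.card_Ico]; omega
  have s1 : ((b - 1 : ℕ) : ℝ) * (d / 128) ≤ B * ∑ l ∈ Ico b (top - 1), G l δ := by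
    rw [mul_sum, ← hcard1, ← nsmul_eq_mul, ← sum_const]
    exact sum_le_sum hGlow
  have s2 : ∑ l ∈ Ico b (top - 1), P l δ ≤ (b : ℝ) * (2 * A * d / g) := by
    refine (sum_le_sum hPar).trans ?_
    rw [sum_const, hcard1, nsmul_eq_mul]
    exact mul_le_mul_of_nonneg_right (by exact_mod_cast Nat.sub_le b 1) (by positivity)
  have s3 : ∑ l ∈ Ico b top, Sm l δ ≤ (b : ℝ) * (2 * A * d) := by
    refine (sum_le_sum hSm).trans ?_
    rw [sum_const, hcard2, nsmul_eq_mul]
  have hC0 : 0 ≤ C := by rw [hC]; positivity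
  simp only [Φ, LinearMap.sub_apply, LinearMap.smul_apply, LinearMap.sum_apply, smul_eq_mul] at main
  have hgk : (0 : ℝ) ≤ 4 * k / (g : ℝ) ^ p := by positivity
  have key : (k : ℝ) * ((b - 1 : ℕ) * (d / 128)) ≤
      B * (4 * k * (b * (2 * A * d / g)) + 4 * k / (g : ℝ) ^ p * (b * (2 * A * d)) + C * (A * d)) := by
    refine (mul_le_mul_of_nonneg_left s1 (Nat.cast_nonneg k)).trans ?_
    rw [mul_left_comm]
    refine mul_le_mul_of_nonneg_left ?_ hB0
    have m2 := mul_le_mul_of_nonneg_left s2 (by positivity : (0 : ℝ) ≤ 4 * k)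
    have m3 := mul_le_mul_of_nonneg_left s3 hgk
    have m4 := mul_le_mul_of_nonneg_left hFl hC0
    linarith
  have h3 : (1 : ℝ) ≤ (3 : ℝ) ^ (2 * k) := one_le_pow₀ (by norm_num)
  have hfin : B * (4 * k * (b * (2 * A * d / g)) + 4 * k / (g : ℝ) ^ p * (b * (2 * A * d))
      + C * (A * d)) ≤ A * B * (6 + b / g + 8 * k * b / g
        + 12 * k * b * 3 ^ (2 * k) / (g : ℝ) ^ p) * d := by
    have e : 0 ≤ (k : ℝ) * b / (g : ℝ) ^ p := by positivity
    have e2 := mul_le_mul_of_nonneg_left h3 e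
    have hAB : 0 ≤ A * B * d := by positivity
    rw [hC]
    have e3 := mul_le_mul_of_nonneg_left e2 hAB
    ring_nf at e3 ⊢
    linarith
  refine le_of_mul_le_mul_right ?_ hd
  refine le_trans (le_of_eq ?_) (key.trans hfin)
  ring

/-- The numeric inequality for the error terms. -/
lemma params_bound {a p : ℕ} (ha : 1 ≤ a) (hbig : 6 * a * p ^ 2 ≤ 2 ^ a) :
    (6 : ℝ) + (6 * p : ℕ) / ((2 ^ a : ℕ) : ℝ)
      + 8 * (2 * (a * p / 16) : ℕ) * (6 * p : ℕ) / ((2 ^ a : ℕ) : ℝ)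
      + 12 * (2 * (a * p / 16) : ℕ) * (6 * p : ℕ) * (3 : ℝ) ^ (2 * (2 * (a * p / 16)))
          / ((2 ^ a : ℕ) : ℝ) ^ p ≤ 152 := by
  set m := a * p with hm
  set k := 2 * (m / 16) with hk
  have hkm : 8 * k ≤ m := by omega
  have h1 : 6 * p ≤ 2 ^ a := by
    rcases Nat.eq_zero_or_pos p with h | h
    · simp [h]
    · calc 6 * p ≤ 6 * a * p ^ 2 := by
            nlinarith [Nat.mul_le_mul_left (6 * p) (Nat.mul_pos ha h)]
        _ ≤ 2 ^ a := hbig
  have h2 : 8 * k * (6 * p) ≤ 2 ^ a := by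
    calc 8 * k * (6 * p) ≤ m * (6 * p) := Nat.mul_le_mul_right _ hkm
      _ = 6 * a * p ^ 2 := by rw [hm]; ring
      _ ≤ 2 ^ a := hbig
  have h3 : 12 * k * (6 * p) * 3 ^ (2 * k) ≤ 144 * (2 ^ a) ^ p := by
    set e := m - 4 * k with he
    have hsq : m * m ≤ 16 * 2 ^ e := by
      have h := Nat.lt_two_pow_self (n := e / 2)
      calc m * m ≤ (4 * 2 ^ (e / 2)) * (4 * 2 ^ (e / 2)) := Nat.mul_le_mul (by omega) (by omega)
        _ = 16 * 2 ^ (e / 2 + e / 2) := by rw [pow_add]; ring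
        _ ≤ 16 * 2 ^ e := Nat.mul_le_mul_left _ (Nat.pow_le_pow_right (by norm_num) (by omega))
    have h9 : 3 ^ (2 * k) ≤ 2 ^ (4 * k) := by
      rw [pow_mul 3 2 k, pow_mul 2 4 k]
      exact Nat.pow_le_pow_left (show 3 ^ 2 ≤ 2 ^ 4 by norm_num) k
    calc 12 * k * (6 * p) * 3 ^ (2 * k) = 9 * (8 * k * p) * 3 ^ (2 * k) := by ring
      _ ≤ 9 * (m * m) * 2 ^ (4 * k) := by
          gcongr
          rw [hm]; exact Nat.le_mul_of_pos_left p ha
      _ ≤ 9 * (16 * 2 ^ e) * 2 ^ (4 * k) := by gcongr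
      _ = 144 * 2 ^ (e + 4 * k) := by rw [pow_add]; ring
      _ = 144 * (2 ^ a) ^ p := by rw [← pow_mul, show e + 4 * k = a * p by omega]
  have hg0 : (0 : ℝ) < ((2 ^ a : ℕ) : ℝ) := by positivity
  have r1 : ((6 * p : ℕ) : ℝ) / ((2 ^ a : ℕ) : ℝ) ≤ 1 := by
    rw [div_le_one hg0]; exact Nat.cast_le.mpr h1
  have r2 : 8 * (k : ℝ) * (6 * p : ℕ) / ((2 ^ a : ℕ) : ℝ) ≤ 1 := by
    rw [div_le_one hg0]; exact_mod_cast h2
  have r3 : 12 * (k : ℝ) * (6 * p : ℕ) * (3 : ℝ) ^ (2 * k) / ((2 ^ a : ℕ) : ℝ) ^ p ≤ 144 := by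
    rw [div_le_iff₀ (by positivity)]; exact_mod_cast h3
  linarith

lemma two_pow_big {t : ℕ} (ht : 20 ≤ t) : 384 * (t + 1) ≤ 2 ^ t := by
  induction t, ht using Nat.le_induction with
  | base => norm_num
  | succ t ht ih => rw [pow_succ]; omega

/-- The distortion of edit distance into `ℓ₁` grows at least as `(log n)² / log log n`. -/
theorem distortion_lower :
    ∃ c : ℝ, 0 < c ∧ ∃ n₀ : ℕ, ∀ n ≥ n₀, ∀ (F : (Fin n → Bool) → lp (fun _ : ℕ => ℝ) 1) (A B : ℝ),
      (∀ x y, ‖F x - F y‖ ≤ A * ED (List.ofFn x) (List.ofFn y)) →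
      (∀ x y, (ED (List.ofFn x) (List.ofFn y) : ℝ) ≤ B * ‖F x - F y‖) →
      c * Real.log n ^ 2 / Real.log (Real.log n) ≤ A * B := by
  obtain ⟨N, hN⟩ : ∃ N : ℕ, N = 2 ^ 20 := ⟨_, rfl⟩
  refine ⟨1 / (32 * 576 * 70000), by norm_num, 2 ^ N, fun n hn F A B hA hB => ?_⟩
  set ℓ := Nat.log 2 n with hℓ
  have hℓN : N ≤ ℓ := Nat.le_log_of_pow_le (by norm_num) hn
  have hn0 : n ≠ 0 := by have := Nat.two_pow_pos N; omega
  set t := Nat.log 2 ℓ with ht
  have ht20 : 20 ≤ t := Nat.le_log_of_pow_le (by norm_num) (hN ▸ hℓN)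
  have hℓ0 : ℓ ≠ 0 := by have := Nat.two_pow_pos 20; omega
  have htl : 2 ^ t ≤ ℓ := Nat.pow_log_le_self 2 hℓ0
  have hlt : ℓ < 2 ^ (t + 1) := Nat.lt_pow_succ_log_self (by norm_num) ℓ
  set a := 2 * (t + 1) with ha
  set p := ℓ / (12 * a) with hp
  have hp16 : 16 ≤ p := by
    rw [hp, Nat.le_div_iff_mul_le (by omega)]
    have := two_pow_big ht20
    omega
  have hpl : p * (12 * a) ≤ ℓ := Nat.div_mul_le_self _ _
  have hlp : ℓ < (p + 1) * (12 * a) := Nat.lt_mul_of_div_lt (by omega) (by omega)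
  have hbig : 6 * a * p ^ 2 ≤ 2 ^ a := by
    calc 6 * a * p ^ 2 ≤ (p * (12 * a)) * (p * (12 * a)) := by
          nlinarith [Nat.mul_le_mul_left (a * p ^ 2) (show 6 ≤ 144 * a by omega)]
      _ ≤ 2 ^ (t + 1) * 2 ^ (t + 1) := Nat.mul_le_mul (by omega) (by omega)
      _ = 2 ^ a := by rw [← pow_add]; congr 1; omega
  have hfit : (2 ^ a) ^ (12 * p) ≤ n := by
    rw [← pow_mul]
    refine (Nat.pow_le_pow_right (by norm_num) ?_).trans (Nat.pow_log_le_self 2 hn0)
    rw [← hℓ]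
    linarith
  have hm : 16 ≤ a * p := le_trans hp16 (Nat.le_mul_of_pos_left p (by omega))
  have h1 := fixed_bound (h := a * p / 16) (by omega) (by omega) (by omega) hfit F hA hB
  have hAB : 0 ≤ A * B := by
    by_contra hneg
    have hne : (fun _ : Fin n => false) ≠ fun _ => true := fun e => by
      simpa using congrFun e ⟨0, Nat.pos_of_ne_zero hn0⟩
    have := one_le_ED (fun e => hne (List.ofFn_injective e))
    have h2 := hB (fun _ => false) fun _ => true
    have h3 := hA (fun _ => false) fun _ => true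
    have h5 : (1 : ℝ) ≤ ED (List.ofFn fun _ : Fin n => false) (List.ofFn fun _ : Fin n => true) := by
      exact_mod_cast this
    have h6 : 0 < B := by nlinarith [norm_nonneg (F (fun _ => false) - F fun _ => true)]
    have h7 : 0 ≤ A := by nlinarith [norm_nonneg (F (fun _ => false) - F fun _ => true)]
    exact hneg (mul_nonneg h7 h6.le)
  have h2 := h1.trans (mul_le_mul_of_nonneg_left (params_bound (by omega) hbig) hAB)
  have h3 : 5 * (a * p * p) ≤ 16 * (2 * (a * p / 16) * (6 * p - 1)) := by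
    calc 5 * (a * p * p) = a * p * (5 * p) := by ring
      _ ≤ (16 * (2 * (a * p / 16))) * (6 * p - 1) := Nat.mul_le_mul (by omega) (by omega)
      _ = _ := by ring
  have h4 : ℓ * ℓ ≤ 576 * a * (a * p * p) := by
    calc ℓ * ℓ ≤ (24 * (a * p)) * (24 * (a * p)) := by
          have : ℓ ≤ 24 * (a * p) := by nlinarith
          exact Nat.mul_le_mul this this
      _ = _ := by ring
  have h3' : ((5 * (a * p * p) : ℕ) : ℝ) ≤ ((16 * (2 * (a * p / 16) * (6 * p - 1)) : ℕ) : ℝ) :=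
    Nat.cast_le.mpr h3
  have h4' : ((ℓ * ℓ : ℕ) : ℝ) ≤ ((576 * a * (a * p * p) : ℕ) : ℝ) := Nat.cast_le.mpr h4
  simp only [Nat.cast_mul, Nat.cast_ofNat] at h3' h4' h2
  have h5 : (ℓ : ℝ) * ℓ ≤ 576 * a * (70000 * (A * B)) := by
    refine h4'.trans (mul_le_mul_of_nonneg_left ?_ (by positivity))
    linarith
  have hnR : (0 : ℝ) < n := by exact_mod_cast Nat.pos_of_ne_zero hn0
  have hℓR : (1 : ℝ) ≤ ℓ := by exact_mod_cast Nat.pos_of_ne_zero hℓ0
  have hl2 := Real.log_two_gt_d9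
  have hl2' := Real.log_two_lt_d9
  have hlo : (ℓ : ℝ) * Real.log 2 ≤ Real.log n := by
    rw [← Real.log_pow]
    exact Real.log_le_log (by positivity) (by exact_mod_cast Nat.pow_log_le_self 2 hn0)
  have hhi : Real.log n ≤ 2 * ℓ := by
    have : Real.log n ≤ Real.log ((2 : ℝ) ^ (ℓ + 1)) := Real.log_le_log hnR
      (by exact_mod_cast (Nat.lt_pow_succ_log_self (by norm_num) n).le)
    rw [Real.log_pow] at this
    push_cast at this
    nlinarith
  have hln0 : 0 < Real.log n := by nlinarith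
  have hll : (a : ℝ) ≤ 8 * Real.log (Real.log n) := by
    have e1 : Real.log (((2 : ℝ) ^ t) / 2) ≤ Real.log (Real.log n) := by
      refine Real.log_le_log (by positivity) ?_
      have : (2 : ℝ) ^ t ≤ ℓ := by exact_mod_cast htl
      nlinarith
    rw [Real.log_div (by positivity) two_ne_zero, Real.log_pow] at e1
    have : (20 : ℝ) ≤ t := by exact_mod_cast ht20
    rw [ha]
    push_cast
    nlinarith
  have haR : (0 : ℝ) < a := by exact_mod_cast (show 0 < a by omega)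
  have hllpos : 0 < Real.log (Real.log n) := by linarith
  rw [div_le_iff₀ hllpos]
  have h6 : Real.log n ^ 2 ≤ 4 * (ℓ * ℓ) := by nlinarith
  have h7 := mul_le_mul_of_nonneg_right hll (by positivity : (0 : ℝ) ≤ 576 * (70000 * (A * B)))
  linarith

end Vale.Agent.P238
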