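import Mathlib

/-!
# Occupation numbers of aligned intervals
-/

namespace Vale.Agent.P238

open Finset

variable {n : ℕ}

/-- The positions of `S` in the interval of length `g ^ l` with index `i`. -/
def nb (g l i : ℕ) (S : Finset (Fin n)) : ℕ :=
  #(S.filter fun s : Fin n => (s : ℕ) / g ^ l = i)

/-- The indices of the children of an interval. -/
def children (g i : ℕ) : Finset ℕ := Ico (i * g) ((i + 1) * g)

/-- An interval which keeps `h` positions outside each of its children. -/
def Spread (g h l i : ℕ) (S : Finset (Fin n)) : Prop :=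
  2 * h ≤ nb g (l + 1) i S ∧ ∀ j ∈ children g i, nb g l j S + h ≤ nb g (l + 1) i S

/-- An interval whose parent keeps `k` positions outside each of its children. -/
def Charged (g k l i : ℕ) (S : Finset (Fin n)) : Prop :=
  2 * k ≤ nb g (l + 1) i S ∧ ∀ j ∈ children g i, nb g l j S + k ≤ nb g (l + 2) (i / g) S

/-- An interval whose parent has nothing outside one child of the interval. -/
def Packed (g k l i : ℕ) (S : Finset (Fin n)) : Prop :=
  2 * k ≤ nb g (l + 1) i S ∧ ∃ j ∈ children g i, nb g l j S = nb g (l + 2) (i / g) S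

/-- An interval whose parent has between one and `k` positions outside one of its children. -/
def Loose (g k l i : ℕ) (S : Finset (Fin n)) : Prop :=
  2 * k ≤ nb g (l + 1) i S ∧ ∃ j ∈ children g i,
    nb g l j S < nb g (l + 2) (i / g) S ∧ nb g (l + 2) (i / g) S < nb g l j S + k

lemma mem_children {g i j : ℕ} (hg : 0 < g) : j ∈ children g i ↔ j / g = i := by
  rw [children, mem_Ico, Nat.div_eq_iff hg, Nat.add_mul, Nat.one_mul]
  omega

lemma sum_children (g N : ℕ) (F : ℕ → ℕ) :
    ∑ i ∈ range N, ∑ j ∈ children g i, F j = ∑ j ∈ range (N * g), F j := by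
  induction N with
  | zero => simp
  | succ N ih =>
    rw [sum_range_succ, ih, children, sum_range_add_sum_Ico _ (by nlinarith)]

lemma sum_children_nb {g : ℕ} (hg : 0 < g) (l i : ℕ) (S : Finset (Fin n)) :
    ∑ j ∈ children g i, nb g l j S = nb g (l + 1) i S := by
  unfold nb
  rw [← card_biUnion]
  · congr 1
    ext s
    simp only [mem_biUnion, mem_filter, mem_children hg, pow_succ, ← Nat.div_div_eq_div_mul]
    exact ⟨fun ⟨j, hj, hs, e⟩ => ⟨hs, by rw [e, hj]⟩, fun ⟨hs, e⟩ => ⟨_, e, hs, rfl⟩⟩
  · intro a _ b _ hab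
    exact disjoint_filter.mpr fun s _ ha hb => hab (ha ▸ hb)

lemma nb_child_le {g : ℕ} (hg : 0 < g) {l i j : ℕ} (S : Finset (Fin n)) (hj : j ∈ children g i) :
    nb g l j S ≤ nb g (l + 1) i S := by
  rw [← sum_children_nb hg]
  exact single_le_sum (f := fun j => nb g l j S) (fun _ _ => Nat.zero_le _) hj

lemma nb_siblings_le {g : ℕ} (hg : 0 < g) {l i i' : ℕ} (S : Finset (Fin n)) (hne : i ≠ i')
    (hp : i / g = i' / g) : nb g l i S + nb g l i' S ≤ nb g (l + 1) (i / g) S := by
  rw [← sum_children_nb hg, ← sum_pair (f := fun j => nb g l j S) hne]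
  refine sum_le_sum_of_subset fun j hj => ?_
  rcases mem_insert.mp hj with rfl | hj
  · exact (mem_children hg).mpr rfl
  · rw [mem_singleton.mp hj]
    exact (mem_children hg).mpr hp.symm

open Classical in
/-- The charge of a node. -/
noncomputable def heavy (g h l i : ℕ) (S : Finset (Fin n)) : ℕ :=
  #{j ∈ children g i | h ≤ nb g l j S}

open Classical in
lemma potential_step {g : ℕ} (hg : 0 < g) (h l i : ℕ) (S : Finset (Fin n)) :
    (if Spread g h l i S then h * (1 + heavy g h l i S) else 0)
      + 3 * ∑ j ∈ children g i, (nb g l j S - h) ≤ 3 * (nb g (l + 1) i S - h) := by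
  set C := (children g i).filter (fun j => h ≤ nb g l j S) with hC
  have hp : heavy g h l i S = C.card := rfl
  have h1 : ∑ j ∈ children g i, (nb g l j S - h) + C.card * h = ∑ j ∈ C, nb g l j S := by
    rw [← sum_filter_of_ne (s := children g i) (p := fun j => h ≤ nb g l j S)
      (f := fun j => nb g l j S - h) fun j _ hj => by omega, ← hC, ← smul_eq_mul, ← sum_const,
      ← sum_add_distrib]
    exact sum_congr rfl fun j hj => by
      have := (mem_filter.mp hj).2
      omega
  have h2 : ∑ j ∈ C, nb g l j S ≤ nb g (l + 1) i S := by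
    rw [← sum_children_nb hg]
    exact sum_le_sum_of_subset (filter_subset _ _)
  rw [hp]
  rcases Nat.lt_trichotomy C.card 1 with hc | hc | hc
  · have hc0 : C.card = 0 := by omega
    rw [hc0] at h1 ⊢
    rw [card_eq_zero.mp hc0] at h1
    simp at h1
    split_ifs with hs
    · have := hs.1
      have e : ∑ j ∈ children g i, (nb g l j S - h) = 0 := sum_eq_zero fun j hj => h1 j hj
      omega
    · have e : ∑ j ∈ children g i, (nb g l j S - h) = 0 := sum_eq_zero fun j hj => h1 j hj
      omega
  · obtain ⟨a, ha⟩ := card_eq_one.mp hc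
    have hh : h ≤ nb g l a S := (mem_filter.mp (show a ∈ C by simp [ha])).2
    have hac : a ∈ children g i := (mem_filter.mp (show a ∈ C by simp [ha])).1
    rw [hc] at h1 ⊢
    rw [ha, sum_singleton] at h1 h2
    split_ifs with hs
    · have := hs.1
      have := hs.2 a hac
      omega
    · omega
  · have h3 : 2 * h ≤ C.card * h := Nat.mul_le_mul_right h hc
    split_ifs with hs
    · have := hs.1
      rw [Nat.mul_add, Nat.mul_one, Nat.mul_comm h]
      omega
    · omega

open Classical in
lemma charged_le {g : ℕ} (hg : 0 < g) (h l N : ℕ) (S : Finset (Fin n)) :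
    #{i ∈ range (N * g) | Charged g (2 * h) l i S}
      ≤ #{i ∈ range (N * g) | Spread g h l i S}
        + ∑ i ∈ range N, if Spread g h (l + 1) i S then heavy g h (l + 1) i S else 0 := by
  rw [card_filter, card_filter, ← sum_children g N, ← sum_children g N, ← sum_add_distrib]
  refine sum_le_sum fun P _ => ?_
  have key : ∀ i ∈ children g P, Charged g (2 * h) l i S → Spread g h l i S ∨
      (Spread g h (l + 1) P S ∧ h ≤ nb g (l + 1) i S) := by
    intro i hi hc
    by_cases hs : Spread g h l i S
    · exact Or.inl hs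
    · refine Or.inr ?_
      have := hc.1
      simp only [Spread, not_and, not_forall, not_le] at hs
      obtain ⟨j, hj, hjn⟩ := hs (by omega)
      have hj2 := hc.2 j hj
      have hp := (mem_children hg).mp hi
      rw [hp] at hj2
      have hj2' : nb g l j S + 2 * h ≤ nb g (l + 1 + 1) P S := hj2
      refine ⟨⟨by omega, fun i' hi' => ?_⟩, by omega⟩
      by_cases he : i' = i
      · subst he; omega
      · have := nb_siblings_le hg (l := l + 1) S he
          (((mem_children hg).mp hi').trans hp.symm)
        rw [(mem_children hg).mp hi'] at this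
        omega
  refine le_trans (sum_le_sum (g := fun i => (if Spread g h l i S then 1 else 0)
    + if Spread g h (l + 1) P S ∧ h ≤ nb g (l + 1) i S then 1 else 0) fun i hi => ?_) ?_
  · by_cases hc : Charged g (2 * h) l i S
    · rw [if_pos hc]
      rcases key i hi hc with h' | h' <;> simp [h']
    · simp [hc]
  · rw [sum_add_distrib]
    refine Nat.add_le_add_left ?_ _
    split_ifs with hs
    · simp only [hs, true_and, heavy, card_filter]
      exact le_rfl
    · simp [hs]

open Classical in
/-- The count of charged intervals over all scales. -/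
theorem charged_count {g : ℕ} (hg : 0 < g) (h b top : ℕ) (S : Finset (Fin n)) :
    h * ∑ l ∈ Ico b (top - 1), #{i ∈ range (g ^ (top - (l + 1))) | Charged g (2 * h) l i S}
      ≤ 3 * nb g top 0 S := by
  let U : ℕ → ℕ := fun l => #{i ∈ range (g ^ (top - (l + 1))) | Spread g h l i S}
  let V : ℕ → ℕ := fun l =>
    ∑ i ∈ range (g ^ (top - (l + 1))), if Spread g h l i S then heavy g h l i S else 0
  let P : ℕ → ℕ := fun l => ∑ i ∈ range (g ^ (top - l)), 3 * (nb g l i S - h)
  have step : ∀ l < top, h * (U l + V l) + P l ≤ P (l + 1) := by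
    intro l hl
    have e : g ^ (top - l) = g ^ (top - (l + 1)) * g := by
      rw [← pow_succ]; congr 1; omega
    simp only [P, U, V, e, card_filter]
    rw [← sum_children g, ← sum_add_distrib, mul_sum, ← sum_add_distrib]
    refine sum_le_sum fun i _ => ?_
    refine le_trans (le_of_eq ?_) (potential_step hg h l i S)
    rw [mul_sum]
    split_ifs <;> simp
  have tel : ∀ m ≤ top, h * ∑ l ∈ range m, (U l + V l) ≤ P m := by
    intro m hm
    induction m with
    | zero => simp
    | succ m ih =>
      rw [sum_range_succ, mul_add]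
      exact le_trans (by linarith [ih (by omega)]) (step m (by omega))
  have hP : P top ≤ 3 * nb g top 0 S := by simp [P]
  refine le_trans (Nat.mul_le_mul_left h ?_) ((tel top le_rfl).trans hP)
  calc ∑ l ∈ Ico b (top - 1), #{i ∈ range (g ^ (top - (l + 1))) | Charged g (2 * h) l i S}
      ≤ ∑ l ∈ Ico b (top - 1), (U l + V (l + 1)) := by
        refine sum_le_sum fun l hl => ?_
        rw [mem_Ico] at hl
        have e : g ^ (top - (l + 1)) = g ^ (top - (l + 1 + 1)) * g := by
          rw [← pow_succ]; congr 1; omega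
        simp only [U, V]
        rw [e]
        exact charged_le hg h l _ S
    _ = ∑ l ∈ Ico b (top - 1), U l + ∑ l ∈ Ico (b + 1) (top - 1 + 1), V l := by
        rw [sum_add_distrib, sum_Ico_add']
    _ ≤ ∑ l ∈ range top, U l + ∑ l ∈ range top, V l := by
        gcongr <;> · intro l hl; simp only [mem_Ico] at hl; simp only [mem_range]; omega
    _ = ∑ l ∈ range top, (U l + V l) := sum_add_distrib.symm

open Classical in
lemma loose_le_low {g : ℕ} (hg : 0 < g) (k l N : ℕ) (S : Finset (Fin n)) :
    #{i ∈ range (N * g) | Loose g k l i S}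
      ≤ #{j ∈ range (N * g * g) | 1 ≤ nb g l j S ∧ nb g l j S ≤ k} := by
  have key : ∀ i ∈ (range (N * g)).filter (fun i => Loose g k l i S), ∃ j,
      j ∈ (range (N * g * g)).filter (fun j => 1 ≤ nb g l j S ∧ nb g l j S ≤ k) ∧
        j / g / g = i / g := by
    intro i hi
    obtain ⟨hiN, -, j0, hj0, hlt, hgt⟩ := mem_filter.mp hi
    have hij := (mem_children hg).mp hj0
    have hp : ∑ p ∈ children g (i / g), ∑ j ∈ children g p, nb g l j S
        = nb g (l + 2) (i / g) S := by
      simp only [sum_children_nb hg]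
    have hdj : (children g (i / g) : Set ℕ).PairwiseDisjoint (children g) :=
      fun a _ b _ hab => disjoint_left.mpr fun x hx hy =>
        hab (((mem_children hg).mp hx).symm.trans ((mem_children hg).mp hy))
    rw [← sum_biUnion hdj] at hp
    set G := (children g (i / g)).biUnion (children g) with hG
    have hmem : ∀ j ∈ G, j / g / g = i / g := fun j hj => by
      obtain ⟨p, hp', hj'⟩ := mem_biUnion.mp hj
      rw [(mem_children hg).mp hj', (mem_children hg).mp hp']
    have hj0G : j0 ∈ G := mem_biUnion.mpr ⟨i, (mem_children hg).mpr rfl, hj0⟩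
    rw [← add_sum_erase _ _ hj0G] at hp
    have hpos : ∑ j ∈ G.erase j0, nb g l j S ≠ 0 := by omega
    obtain ⟨j, hj, hjne⟩ := exists_ne_zero_of_sum_ne_zero hpos
    have hle : nb g l j S ≤ ∑ j ∈ G.erase j0, nb g l j S :=
      single_le_sum (f := fun j => nb g l j S) (fun _ _ => Nat.zero_le _) hj
    have hjg := hmem j (mem_of_mem_erase hj)
    refine ⟨j, mem_filter.mpr ⟨?_, by omega, by omega⟩, hjg⟩
    rw [mem_range]
    have hlt' : i / g < N := (Nat.div_lt_iff_lt_mul hg).mpr (mem_range.mp hiN)
    rw [← hjg, Nat.div_lt_iff_lt_mul hg, Nat.div_lt_iff_lt_mul hg] at hlt'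
    exact hlt'
  choose! F hF using key
  refine card_le_card_of_injOn F (fun i hi => (hF i hi).1) fun i hi i' hi' e => ?_
  by_contra hne
  have hp : i / g = i' / g := by rw [← (hF i hi).2, ← (hF i' hi').2, e]
  obtain ⟨-, h2, j, hj, -, hgt⟩ := mem_filter.mp hi
  obtain ⟨-, h2', j', hj', -, hgt'⟩ := mem_filter.mp hi'
  rw [← hp] at hgt'
  have := nb_siblings_le hg (l := l + 1) S hne hp
  have h3 := nb_child_le hg (l := l) S hj
  have h4 := nb_child_le hg (l := l) S hj'
  have : nb g (l + 1) i S + nb g (l + 1) i' S ≤ nb g (l + 2) (i / g) S := this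
  omega

lemma packed_unique {g : ℕ} (hg : 0 < g) {k l i i' : ℕ} (hk : 0 < k) {S : Finset (Fin n)}
    (h : Packed g k l i S) (h' : Packed g k l i' S) (hp : i / g = i' / g) : i = i' := by
  by_contra hne
  obtain ⟨h2, j, hj, e⟩ := h
  obtain ⟨h2', j', hj', e'⟩ := h'
  have := nb_siblings_le hg (l := l + 1) S hne hp
  have : nb g (l + 1) i S + nb g (l + 1) i' S ≤ nb g (l + 2) (i / g) S := this
  have := nb_child_le hg (l := l) S hj
  omega

lemma cover {g : ℕ} (hg : 0 < g) {k l i : ℕ} {S : Finset (Fin n)} :
    nb g (l + 1) i S ≤ 2 * k ∨ Packed g k l i S ∨ Loose g k l i S ∨ Charged g k l i S := by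
  by_cases h1 : nb g (l + 1) i S ≤ 2 * k
  · exact Or.inl h1
  refine Or.inr ?_
  by_cases hc : Charged g k l i S
  · exact Or.inr (Or.inr hc)
  simp only [Charged, not_and, not_forall, not_le] at hc
  obtain ⟨j, hj, hlt⟩ := hc (by omega)
  have hle : nb g l j S ≤ nb g (l + 2) (i / g) S :=
    (nb_child_le hg S hj).trans (nb_child_le hg (l := l + 1) S ((mem_children hg).mpr rfl))
  rcases hle.lt_or_eq with h' | h'
  · exact Or.inr (Or.inl ⟨by omega, j, hj, h', hlt⟩)
  · exact Or.inl ⟨by omega, j, hj, h'⟩

end Vale.Agent.P238
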