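import Vale.Agent.P238.Defs
import Vale.Agent.P238.Influence
import Vale.Agent.P238.Tree

/-!
# Rotations of aligned intervals against influences
-/

namespace Vale.Agent.P238

open Finset
open Vale.Agent.P063

variable {n : ℕ}

/-- The rotation by `r` of the interval of length `g ^ l` with index `i`. -/
noncomputable def brot (g l i r : ℕ) : Equiv.Perm (Fin n) := rot (i * g ^ l) (g ^ l) r

/-- The positions of an interval. -/
def block (n g l i : ℕ) : Finset (Fin n) := univ.filter fun s : Fin n => (s : ℕ) / g ^ l = i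

/-- The rotation amounts used for an interval of length `w`. -/
def amounts (w : ℕ) : Finset ℕ := Icc (w / 4) (w - w / 4)

lemma mem_amounts_reflect {w r : ℕ} (h : r ∈ amounts w) : w - r ∈ amounts w := by
  simp only [amounts, mem_Icc] at *; omega

lemma amounts_le {w r : ℕ} (h : r ∈ amounts w) : r ≤ w := by
  simp only [amounts, mem_Icc] at *; omega

lemma card_amounts (w : ℕ) : w ≤ 2 * (amounts w).card := by
  simp only [amounts, Nat.card_Icc]; omega

lemma sum_amounts_reflect {M : Type} [AddCommMonoid M] (w : ℕ) (F : ℕ → M) :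
    ∑ r ∈ amounts w, F (w - r) = ∑ r ∈ amounts w, F r := by
  refine sum_nbij' (fun r => w - r) (fun r => w - r) (fun r hr => mem_amounts_reflect hr)
    (fun r hr => mem_amounts_reflect hr) (fun r hr => ?_) (fun r hr => ?_) (fun r _ => rfl) <;>
  · have := amounts_le hr
    omega

lemma block_fit {g l i top : ℕ} (hl : l ≤ top) (hn : g ^ top ≤ n) (hi : i < g ^ (top - l)) :
    i * g ^ l + g ^ l ≤ n := by
  calc i * g ^ l + g ^ l = (i + 1) * g ^ l := by ring
    _ ≤ g ^ (top - l) * g ^ l := Nat.mul_le_mul_right _ hi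
    _ = g ^ top := by rw [← pow_add]; congr 1; omega
    _ ≤ n := hn

lemma div_eq_iff_range {W i s : ℕ} (hW : 0 < W) :
    s / W = i ↔ i * W ≤ s ∧ s < i * W + W := by
  rw [Nat.div_eq_iff hW]; omega

lemma brot_out {g l i r : ℕ} (hg : 0 < g) {s : Fin n} (h : (s : ℕ) / g ^ l ≠ i) :
    brot g l i r s = s := by
  rw [brot, rot_apply]
  exact rotIdx_out fun h' => h ((div_eq_iff_range (pow_pos hg l)).mpr h')

lemma brot_val {g l i r : ℕ} (hg : 0 < g) (hfit : i * g ^ l + g ^ l ≤ n) {s : Fin n}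
    (h : (s : ℕ) / g ^ l = i) :
    (brot g l i r s : ℕ) = i * g ^ l + ((s : ℕ) % g ^ l + r) % g ^ l := by
  have h' := (div_eq_iff_range (pow_pos hg l)).mp h
  have e := Nat.div_add_mod (s : ℕ) (g ^ l)
  rw [h, Nat.mul_comm] at e
  rw [brot, rot_apply, rotIdx_val_in h'.1 h'.2 hfit, show (s : ℕ) - i * g ^ l = (s : ℕ) % g ^ l by omega]

lemma brot_div {g l i r : ℕ} (hg : 0 < g) (hfit : i * g ^ l + g ^ l ≤ n) {s : Fin n}
    (h : (s : ℕ) / g ^ l = i) : (brot g l i r s : ℕ) / g ^ l = i := by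
  rw [brot_val hg hfit h, div_eq_iff_range (pow_pos hg l)]
  have := Nat.mod_lt ((s : ℕ) % g ^ l + r) (pow_pos hg l)
  generalize ((s : ℕ) % g ^ l + r) % g ^ l = e at this ⊢
  omega

lemma brot_symm {g l i r : ℕ} (hr : r ≤ g ^ l) :
    (brot (n := n) g l i r).symm = brot g l i (g ^ l - r) := rot_symm hr

lemma nb_map_brot {g l i r : ℕ} (hg : 0 < g) (hfit : i * g ^ l + g ^ l ≤ n) (S : Finset (Fin n)) :
    nb g l i (S.map (brot g l i r).toEmbedding) = nb g l i S := by
  unfold nb
  rw [filter_map, card_map]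
  congr 1
  refine filter_congr fun s _ => ?_
  by_cases h : (s : ℕ) / g ^ l = i
  · simp [brot_div hg hfit h, h]
  · simp [brot_out hg h]

lemma map_brot_of_nb_zero {g l i r : ℕ} (hg : 0 < g) {S : Finset (Fin n)} (h : nb g l i S = 0) :
    S.map (brot g l i r).toEmbedding = S := by
  rw [map_eq_image]
  refine (image_congr fun s hs => ?_).trans image_id
  rw [nb, card_eq_zero, filter_eq_empty_iff] at h
  exact brot_out hg (h hs)

/-- A packed interval whose rotation by `r` does not wrap around inside the packed child. -/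
def Moves (g k l i r : ℕ) (S : Finset (Fin n)) : Prop :=
  2 * k ≤ nb g (l + 1) i S ∧ ∃ j ∈ children g i, nb g l j S = nb g (l + 2) (i / g) S ∧
    ((j % g + 1) * g ^ l + r ≤ g ^ (l + 1) ∨ g ^ (l + 1) ≤ j % g * g ^ l + r)

lemma Moves.packed {g k l i r : ℕ} {S : Finset (Fin n)} (h : Moves g k l i r S) :
    Packed g k l i S := by
  obtain ⟨h1, j, hj, e, -⟩ := h
  exact ⟨h1, j, hj, e⟩

lemma Moves.map_eq {g k l i r : ℕ} (hg : 0 < g) (hr : r ≤ g ^ (l + 1))
    (hfit : i * g ^ (l + 1) + g ^ (l + 1) ≤ n)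
    (hfit' : i / g * g ^ (l + 2) + g ^ (l + 2) ≤ n) {S : Finset (Fin n)}
    (h : Moves g k l i r S) :
    S.map (brot g (l + 1) i r).toEmbedding = S.map (brot g (l + 2) (i / g) r).toEmbedding ∨
    S.map (brot g (l + 1) i r).toEmbedding = S.map
      (brot g (l + 2) (i / g) (g ^ (l + 2) - (g ^ (l + 1) - r))).toEmbedding := by
  obtain ⟨-, j, hj, hjn, hgood⟩ := h
  have hji := (mem_children hg).mp hj
  have hsub : ∀ s ∈ S, (s : ℕ) / g ^ (l + 2) = i / g → (s : ℕ) / g ^ l = j := by
    intro s hs hp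
    have hss : S.filter (fun s : Fin n => (s : ℕ) / g ^ l = j)
        ⊆ S.filter (fun s : Fin n => (s : ℕ) / g ^ (l + 2) = i / g) := by
      intro t ht
      rw [mem_filter] at ht ⊢
      exact ⟨ht.1, by rw [pow_add, ← Nat.div_div_eq_div_mul, ht.2, pow_two,
        ← Nat.div_div_eq_div_mul, hji]⟩
    have heq := eq_of_subset_of_card_le hss (le_of_eq hjn.symm)
    exact (mem_filter.mp (heq ▸ mem_filter.mpr ⟨hs, hp⟩ : s ∈ S.filter fun s : Fin n => (s : ℕ) / g ^ l = j)).2
  have key : ∀ R, (∀ e < g ^ l, (i % g * g ^ (l + 1) + (j % g * g ^ l + e) + R) % g ^ (l + 2)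
        = i % g * g ^ (l + 1) + (j % g * g ^ l + e + r) % g ^ (l + 1)) →
      S.map (brot g (l + 1) i r).toEmbedding = S.map (brot g (l + 2) (i / g) R).toEmbedding := by
    intro R hR
    rw [map_eq_image, map_eq_image]
    refine image_congr fun s hs => ?_
    show brot g (l + 1) i r s = brot g (l + 2) (i / g) R s
    by_cases hp : (s : ℕ) / g ^ (l + 2) = i / g
    · have hu := hsub s hs hp
      have hw : (s : ℕ) / g ^ (l + 1) = i := by rw [pow_succ, ← Nat.div_div_eq_div_mul, hu, hji]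
      have e2 : (s : ℕ) % g ^ (l + 1) = j % g * g ^ l + (s : ℕ) % g ^ l := by
        rw [pow_succ, Nat.mod_mul, hu]; ring
      have e3 : (s : ℕ) % g ^ (l + 2) = i % g * g ^ (l + 1) + (s : ℕ) % g ^ (l + 1) := by
        rw [pow_succ g (l + 1), Nat.mod_mul, hw]; ring
      apply Fin.ext
      rw [brot_val hg hfit hw, brot_val hg hfit' hp, e3, e2, hR _ (Nat.mod_lt _ (pow_pos hg l))]
      have e4 : i * g ^ (l + 1) = i / g * g ^ (l + 2) + i % g * g ^ (l + 1) := by
        have := Nat.div_add_mod i g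
        calc i * g ^ (l + 1) = (g * (i / g) + i % g) * g ^ (l + 1) := by rw [this]
          _ = _ := by ring
      omega
    · have hw : (s : ℕ) / g ^ (l + 1) ≠ i := fun h => hp (by
        rw [pow_succ g (l + 1), ← Nat.div_div_eq_div_mul, h])
      rw [brot_out hg hw, brot_out hg hp]
  have hWw : g ^ (l + 2) = g * g ^ (l + 1) := by ring
  have hwu : g ^ (l + 1) = g * g ^ l := by ring
  have ho : i % g * g ^ (l + 1) + g ^ (l + 1) ≤ g ^ (l + 2) := by
    rw [hWw]
    calc i % g * g ^ (l + 1) + g ^ (l + 1) = (i % g + 1) * g ^ (l + 1) := by ring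
      _ ≤ g * g ^ (l + 1) := Nat.mul_le_mul_right _ (Nat.mod_lt i hg)
  have hju : j % g * g ^ l + g ^ l ≤ g ^ (l + 1) := by
    rw [hwu]
    calc j % g * g ^ l + g ^ l = (j % g + 1) * g ^ l := by ring
      _ ≤ g * g ^ l := Nat.mul_le_mul_right _ (Nat.mod_lt j hg)
  rw [Nat.add_mul, Nat.one_mul] at hgood
  rcases hgood with h1 | h1
  · refine Or.inl (key r fun e he => ?_)
    rw [Nat.mod_eq_of_lt (show j % g * g ^ l + e + r < g ^ (l + 1) by omega),
      Nat.mod_eq_of_lt (by omega)]
    omega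
  · refine Or.inr (key _ fun e he => ?_)
    rw [Nat.mod_eq_sub_mod (show g ^ (l + 1) ≤ j % g * g ^ l + e + r by omega),
      Nat.mod_eq_of_lt (show j % g * g ^ l + e + r - g ^ (l + 1) < g ^ (l + 1) by omega),
      Nat.mod_eq_sub_mod (by omega), Nat.mod_eq_of_lt (by omega)]
    omega

open Classical in
lemma card_stuck {g k l i : ℕ} {S : Finset (Fin n)} (h : Packed g k l i S) :
    #{r ∈ amounts (g ^ (l + 1)) | ¬ Moves g k l i r S} ≤ g ^ l := by
  obtain ⟨h2, j, hj, e⟩ := h
  refine le_trans (card_le_card (t := Ico (g ^ (l + 1) - (j % g + 1) * g ^ l)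
    (g ^ (l + 1) - j % g * g ^ l)) fun r hr => ?_) ?_
  · rw [mem_filter] at hr
    have hn := hr.2
    rw [mem_Ico]
    by_contra hc
    apply hn
    refine ⟨h2, j, hj, e, ?_⟩
    have := amounts_le hr.1
    rw [Nat.add_mul, Nat.one_mul] at hc ⊢
    omega
  · rw [Nat.card_Ico, Nat.add_mul, Nat.one_mul]
    omega

/-- The total influence of the first `g ^ top` positions. -/
noncomputable def inflSum (g top : ℕ) (f : (Fin n → Bool) → ℝ) : ℝ :=
  ∑ s with (s : Fin n).val < g ^ top, infl f s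

open Classical in
lemma per_level {f : (Fin n → Bool) → ℝ} {g k l top : ℕ} (hg : 0 < g) (hk : 0 < k)
    (hl : l + 2 ≤ top) (hn : g ^ top ≤ n) :
    ∑ i ∈ range (g ^ (top - (l + 1))), ∑ r ∈ amounts (g ^ (l + 1)), dis f (brot g (l + 1) i r) ≤
      4 * ∑ i ∈ range (g ^ (top - (l + 2))), ∑ r ∈ amounts (g ^ (l + 1)),
          dis f (brot g (l + 2) i r)
      + ∑ S, coef f S ^ 2 *
        ((amounts (g ^ (l + 1))).card *
            (#{i ∈ range (g ^ (top - (l + 1))) | 1 ≤ nb g (l + 1) i S ∧ nb g (l + 1) i S ≤ 2 * k}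
            + #{i ∈ range (g ^ (top - (l + 1))) | Loose g k l i S}
            + #{i ∈ range (g ^ (top - (l + 1))) | Charged g k l i S})
          + g ^ l * #{i ∈ range (g ^ (top - (l + 1))) | 2 * k ≤ nb g (l + 1) i S} : ℕ) := by
  set A := amounts (g ^ (l + 1)) with hA
  set c := coef f with hc
  set E : ℕ → ℕ → ℝ := fun i r => ∑ S, if Moves g k l i r S then
    (c S - c (S.map (brot g (l + 1) i r).toEmbedding)) ^ 2 else 0 with hE
  set G : ℕ → ℕ → ℝ := fun i r => ∑ S, if 1 ≤ nb g (l + 1) i S ∧ ¬ Moves g k l i r S then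
    c S ^ 2 else 0 with hG
  have hfit : ∀ i ∈ range (g ^ (top - (l + 1))), i * g ^ (l + 1) + g ^ (l + 1) ≤ n :=
    fun i hi => block_fit (by omega) hn (mem_range.mp hi)
  have hN : g ^ (top - (l + 1)) = g ^ (top - (l + 2)) * g := by
    rw [← pow_succ]; congr 1; omega
  have hfit' : ∀ P ∈ range (g ^ (top - (l + 2))), P * g ^ (l + 2) + g ^ (l + 2) ≤ n :=
    fun i hi => block_fit (by omega) hn (mem_range.mp hi)
  have one : ∀ i ∈ range (g ^ (top - (l + 1))), ∀ r ∈ A, 4 * dis f (brot g (l + 1) i r)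
      ≤ E i r + E i (g ^ (l + 1) - r) + 2 * G i r + 2 * G i (g ^ (l + 1) - r) := by
    intro i hi r hr
    set σ := brot (n := n) g (l + 1) i r with hσ
    set e := Equiv.finsetCongr σ with he
    have hr' := amounts_le hr
    have back : ∀ T : Finset (Fin n), (T.map σ.toEmbedding).map
        (brot g (l + 1) i (g ^ (l + 1) - r)).toEmbedding = T := fun T => by
      rw [← brot_symm hr', map_map]
      convert map_refl (s := T)
      ext x
      simp [hσ]
    have r1 : ∀ (F : Finset (Fin n) → ℝ), ∑ S, F S = ∑ S : Finset (Fin n), F (S.map σ.toEmbedding) := fun F => by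
      rw [← Equiv.sum_comp e F]
      rfl
    have hnm : ∀ S : Finset (Fin n), nb g (l + 1) i (S.map σ.toEmbedding) = nb g (l + 1) i S :=
      fun S => nb_map_brot hg (hfit i hi) S
    have e2 : E i (g ^ (l + 1) - r) = ∑ S : Finset (Fin n),
        if Moves g k l i (g ^ (l + 1) - r) (S.map σ.toEmbedding) then
          (c S - c (S.map σ.toEmbedding)) ^ 2 else 0 := by
      simp only [hE]
      rw [r1]
      refine sum_congr rfl fun S _ => ?_
      rw [back S]
      split_ifs <;> ring
    have g2 : G i (g ^ (l + 1) - r) = ∑ S : Finset (Fin n),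
        if 1 ≤ nb g (l + 1) i S ∧ ¬ Moves g k l i (g ^ (l + 1) - r) (S.map σ.toEmbedding) then
          c (S.map σ.toEmbedding) ^ 2 else 0 := by
      simp only [hG]
      rw [r1]
      refine sum_congr rfl fun S _ => ?_
      simp only [hnm S]
    rw [dis_eq, e2, g2]
    simp only [hE, hG, mul_sum, ← sum_add_distrib]
    refine sum_le_sum fun S _ => ?_
    by_cases h0 : nb g (l + 1) i S = 0
    · have e0 : S.map σ.toEmbedding = S := map_brot_of_nb_zero hg h0
      rw [e0]
      simp [← hc, h0]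
    have h1 : 1 ≤ nb g (l + 1) i S := by omega
    simp only [h1, true_and, ← hc, ← hσ]
    have hsq := sq_nonneg (c S + c (S.map σ.toEmbedding))
    split_ifs <;> nlinarith [sq_nonneg (c S), sq_nonneg (c (S.map σ.toEmbedding)),
      sq_nonneg (c S - c (S.map σ.toEmbedding))]
  have move : ∀ P ∈ range (g ^ (top - (l + 2))), ∀ r ∈ A, ∑ i ∈ children g P, E i r
      ≤ 4 * dis f (brot g (l + 2) P r)
        + 4 * dis f (brot g (l + 2) P (g ^ (l + 2) - (g ^ (l + 1) - r))) := by
    intro P hP r hr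
    rw [dis_eq, dis_eq, ← sum_add_distrib, hE, sum_comm]
    refine sum_le_sum fun S _ => ?_
    rw [← sum_filter]
    have hcard : ((children g P).filter fun i => Moves g k l i r S).card ≤ 1 := by
      refine card_le_one.mpr fun a ha b hb => ?_
      rw [mem_filter, mem_children hg] at ha hb
      exact packed_unique hg hk ha.2.packed hb.2.packed (ha.1.trans hb.1.symm)
    rcases eq_empty_or_nonempty ((children g P).filter fun i => Moves g k l i r S) with h0 | ⟨i, hi⟩
    · rw [h0, sum_empty]; positivity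
    · rw [eq_singleton_iff_unique_mem.mpr ⟨hi, fun j hj => card_le_one.mp hcard j hj i hi⟩,
        sum_singleton]
      rw [mem_filter, mem_children hg] at hi
      obtain ⟨hiP, hm⟩ := hi
      subst hiP
      have hiN : i ∈ range (g ^ (top - (l + 1))) := by
        rw [mem_range, hN, ← Nat.div_lt_iff_lt_mul hg]
        exact mem_range.mp hP
      rcases hm.map_eq hg (amounts_le hr) (hfit i hiN) (hfit' _ hP) with h | h <;> rw [h]
      · exact le_add_of_nonneg_right (sq_nonneg _)
      · exact le_add_of_nonneg_left (sq_nonneg _)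
  have stuck : ∀ i (S : Finset (Fin n)), (#{r ∈ A | 1 ≤ nb g (l + 1) i S ∧ ¬ Moves g k l i r S}) ≤
      A.card * ((if 1 ≤ nb g (l + 1) i S ∧ nb g (l + 1) i S ≤ 2 * k then 1 else 0)
        + (if Loose g k l i S then 1 else 0) + (if Charged g k l i S then 1 else 0))
      + g ^ l * (if 2 * k ≤ nb g (l + 1) i S then 1 else 0) := by
    intro i S
    by_cases h1 : 1 ≤ nb g (l + 1) i S
    swap
    · simp [h1]
    rcases cover hg (k := k) (l := l) (i := i) (S := S) with h | h | h | h
    · refine le_trans (card_filter_le _ _) (le_trans ?_ (Nat.le_add_right _ _))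
      simp [h1, h, Nat.mul_add]
      omega
    · simp only [h1, true_and]
      refine le_trans (card_stuck h) (le_trans ?_ (Nat.le_add_left _ _))
      simp [h.1]
    · refine le_trans (card_filter_le _ _) (le_trans ?_ (Nat.le_add_right _ _))
      simp [h, Nat.mul_add]
      omega
    · refine le_trans (card_filter_le _ _) (le_trans ?_ (Nat.le_add_right _ _))
      simp [h, Nat.mul_add]
  have refl2 : ∀ P, ∑ r ∈ A, dis f (brot g (l + 2) P (g ^ (l + 2) - (g ^ (l + 1) - r)))
      = ∑ r ∈ A, dis f (brot g (l + 2) P r) := by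
    intro P
    rw [hA, sum_amounts_reflect _ fun r => dis f (brot g (l + 2) P (g ^ (l + 2) - r))]
    refine sum_congr rfl fun r hr => ?_
    have hr' : r ≤ g ^ (l + 2) :=
      (amounts_le hr).trans (Nat.pow_le_pow_right hg (by omega))
    rw [← brot_symm hr', dis_symm]
  have hEsum : ∑ i ∈ range (g ^ (top - (l + 1))), ∑ r ∈ A, E i r
      ≤ 8 * ∑ P ∈ range (g ^ (top - (l + 2))), ∑ r ∈ A, dis f (brot g (l + 2) P r) := by
    have e : ∀ F : ℕ → ℝ, ∑ i ∈ range (g ^ (top - (l + 1))), F i
        = ∑ P ∈ range (g ^ (top - (l + 2))), ∑ i ∈ children g P, F i := fun F => by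
      rw [hN, ← sum_fiberwise_of_maps_to (g := fun i => i / g) fun i hi =>
        mem_range.mpr ((Nat.div_lt_iff_lt_mul hg).mpr (mem_range.mp hi))]
      refine sum_congr rfl fun P hP => sum_congr ?_ fun _ _ => rfl
      ext i
      rw [mem_filter, mem_range, mem_children hg]
      exact ⟨fun h => h.2, fun h => ⟨(Nat.div_lt_iff_lt_mul hg).mp (h ▸ mem_range.mp hP), h⟩⟩
    rw [e, mul_sum]
    refine sum_le_sum fun P hP => ?_
    rw [sum_comm]
    refine (sum_le_sum fun r hr => move P hP r hr).trans (le_of_eq ?_)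
    rw [sum_add_distrib, ← mul_sum, ← mul_sum, refl2]
    ring
  have hGsum : ∑ i ∈ range (g ^ (top - (l + 1))), ∑ r ∈ A, G i r ≤ ∑ S, c S ^ 2 *
        ((A.card *
            (#{i ∈ range (g ^ (top - (l + 1))) | 1 ≤ nb g (l + 1) i S ∧ nb g (l + 1) i S ≤ 2 * k}
            + #{i ∈ range (g ^ (top - (l + 1))) | Loose g k l i S}
            + #{i ∈ range (g ^ (top - (l + 1))) | Charged g k l i S})
          + g ^ l * #{i ∈ range (g ^ (top - (l + 1))) | 2 * k ≤ nb g (l + 1) i S} : ℕ)) := by
    simp only [hG]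
    rw [sum_congr rfl fun i _ => sum_comm, sum_comm]
    refine sum_le_sum fun S _ => ?_
    simp only [← sum_filter, sum_const, nsmul_eq_mul]
    rw [← sum_mul, mul_comm (c S ^ 2), ← Nat.cast_sum]
    refine mul_le_mul_of_nonneg_right ?_ (sq_nonneg _)
    norm_cast
    refine (sum_le_sum fun i _ => stuck i S).trans (le_of_eq ?_)
    simp only [card_filter, sum_add_distrib, ← mul_sum]
  have key : ∑ i ∈ range (g ^ (top - (l + 1))), ∑ r ∈ A, 4 * dis f (brot g (l + 1) i r) ≤
      ∑ i ∈ range (g ^ (top - (l + 1))), ∑ r ∈ A,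
        (E i r + E i (g ^ (l + 1) - r) + 2 * G i r + 2 * G i (g ^ (l + 1) - r)) :=
    sum_le_sum fun i hi => sum_le_sum fun r hr => one i hi r hr
  simp only [sum_add_distrib, ← mul_sum, hA, sum_amounts_reflect] at key
  rw [← hA] at key
  linarith [key, hEsum, hGsum]

end Vale.Agent.P238
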